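import Mathlib

open MeasureTheory ProbabilityTheory Filter
open scoped ENNReal NNReal Topology

namespace Vale.Agent.P249

/-- Euclidean space of dimension `k`. -/
abbrev Eu (k : ℕ) : Type := EuclideanSpace ℝ (Fin k)

/-! ### Absolute continuity of the standard Gaussian measure -/

theorem pi_absolutelyContinuous (μ ν : Measure ℝ) [SigmaFinite μ] [SigmaFinite ν] (h : μ ≪ ν) :
    ∀ k : ℕ, (Measure.pi (fun _ : Fin k => μ)) ≪ (Measure.pi (fun _ : Fin k => ν)) := by
  intro k
  induction k with
  | zero =>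
    rw [Measure.pi_of_empty (fun _ : Fin 0 => μ) (fun i => i.elim0),
      Measure.pi_of_empty (fun _ : Fin 0 => ν) (fun i => i.elim0)]
  | succ k ih =>
    have h1 := (measurePreserving_piFinSuccAbove (fun _ : Fin (k + 1) => μ) 0).symm
    have h2 := (measurePreserving_piFinSuccAbove (fun _ : Fin (k + 1) => ν) 0).symm
    rw [← h1.map_eq, ← h2.map_eq]
    apply Measure.AbsolutelyContinuous.map _ (MeasurableEquiv.measurable _)
    exact h.prod ih

theorem stdGaussian_absolutelyContinuous (k : ℕ) :
    stdGaussian (EuclideanSpace ℝ (Fin k)) ≪ (volume : Measure (EuclideanSpace ℝ (Fin k))) := by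
  rw [← map_pi_eq_stdGaussian, ← (PiLp.volume_preserving_toLp (Fin k)).map_eq]
  apply Measure.AbsolutelyContinuous.map _ (by fun_prop)
  exact pi_absolutelyContinuous _ _ (gaussianReal_absolutelyContinuous 0 one_ne_zero) k

/-- The `q`-th absolute moment of the standard Gaussian. -/
noncomputable def gmom (q : ℝ) : ℝ := ∫ s, |s| ^ q ∂(gaussianReal 0 1)

theorem gmom_nonneg (q : ℝ) : 0 ≤ gmom q := integral_nonneg (fun s => by positivity)

theorem integral_abs_dual_rpow (k : ℕ) (q : ℝ)
    (L : StrongDual ℝ (EuclideanSpace ℝ (Fin k))) :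
    ∫ y, |L y| ^ q ∂(stdGaussian (EuclideanSpace ℝ (Fin k))) = ‖L‖ ^ q * gmom q := by
  have h1 : ∫ y, |L y| ^ q ∂(stdGaussian (EuclideanSpace ℝ (Fin k))) =
      ∫ s, |s| ^ q ∂((stdGaussian (EuclideanSpace ℝ (Fin k))).map L) := by
    rw [integral_map L.continuous.aemeasurable]
    exact (Measurable.pow_const (by fun_prop) q).aestronglyMeasurable
  rw [h1, IsGaussian.map_eq_gaussianReal, variance_dual_stdGaussian,
    integral_strongDual_stdGaussian]
  have h2 : gaussianReal 0 (‖L‖ ^ 2).toNNReal =
      (gaussianReal 0 1).map (fun s => ‖L‖ * s) := by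
    have h3 := gaussianReal_map_const_mul (μ := 0) (v := 1) ‖L‖
    rw [mul_zero, mul_one] at h3
    rw [h3]
    congr 1
    ext
    rw [Real.coe_toNNReal _ (sq_nonneg _)]
    rfl
  rw [h2, integral_map (by fun_prop) (Measurable.pow_const (by fun_prop) q).aestronglyMeasurable]
  simp_rw [abs_mul, abs_of_nonneg (norm_nonneg L), Real.mul_rpow (norm_nonneg L) (abs_nonneg _)]
  rw [integral_const_mul]
  rfl

/-- Maurey-Pisier: moments of increments of Lipschitz functions under the Gaussian measure. -/
theorem maurey_pisier (k : ℕ) (q : ℝ) (hq : 1 ≤ q) (g : Eu k → ℝ) (K : ℝ≥0)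
    (hg : LipschitzWith K g) :
    ∫ z, |g z.1 - g z.2| ^ q ∂((stdGaussian (Eu k)).prod (stdGaussian (Eu k))) ≤
      (Real.pi / 2) ^ q * (K : ℝ) ^ q * gmom q := by
  set γ := stdGaussian (Eu k) with hγ
  set G := γ.prod γ with hG
  have hq0 : 0 < q := by linarith
  have hgc : Continuous g := hg.continuous
  -- integrability of powers of norms
  have hmem : MemLp (fun x : Eu k => x) (ENNReal.ofReal q) γ :=
    IsGaussian.memLp_id γ _ ENNReal.ofReal_ne_top
  have hfst : MemLp (fun z : Eu k × Eu k => z.1) (ENNReal.ofReal q) G :=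
    hmem.comp_measurePreserving (measurePreserving_fst (μ := γ) (ν := γ))
  have hsnd : MemLp (fun z : Eu k × Eu k => z.2) (ENNReal.ofReal q) G :=
    hmem.comp_measurePreserving (measurePreserving_snd (μ := γ) (ν := γ))
  have hsum : MemLp (fun z : Eu k × Eu k => ‖z.1‖ + ‖z.2‖) (ENNReal.ofReal q) G :=
    hfst.norm.add hsnd.norm
  have hbound : Integrable (fun z : Eu k × Eu k => ((K : ℝ) * (Real.pi / 2) * (‖z.1‖ + ‖z.2‖)) ^ q) G := by
    have h1 := (hsum.const_mul ((K : ℝ) * (Real.pi / 2))).integrable_norm_rpow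
      (by simpa using hq0) ENNReal.ofReal_ne_top
    rw [ENNReal.toReal_ofReal hq0.le] at h1
    refine h1.congr (Eventually.of_forall (fun z => ?_))
    simp only
    rw [Real.norm_of_nonneg]
    have := Real.pi_pos
    positivity
  -- the approximating quantities
  let θ : ℕ → ℝ := fun N => Real.pi / 2 / (N + 1)
  let c : ℕ → ℝ := fun N => (N : ℝ) + 1
  let F : ℕ → Eu k × Eu k → ℝ := fun N z =>
    |c N * (g (Real.cos (θ N) • z.1 + Real.sin (θ N) • z.2) - g z.1)| ^ q
  have hcpos : ∀ N, 0 < c N := fun N => by positivity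
  have hθpos : ∀ N, 0 < θ N := fun N => by have := Real.pi_pos; positivity
  have hcθ : ∀ N, c N * θ N = Real.pi / 2 := fun N => by
    simp only [c, θ]; field_simp
  have hFcont : ∀ N, Continuous (F N) := by
    intro N
    apply Continuous.rpow_const _ (fun _ => Or.inr hq0.le)
    fun_prop
  have hlip : ∀ N (z : Eu k × Eu k), |c N * (g (Real.cos (θ N) • z.1 + Real.sin (θ N) • z.2) - g z.1)| ≤
      (K : ℝ) * (Real.pi / 2) * (‖z.1‖ + ‖z.2‖) := by
    intro N z
    rw [abs_mul, abs_of_pos (hcpos N)]
    have h1 := hg.dist_le_mul (Real.cos (θ N) • z.1 + Real.sin (θ N) • z.2) z.1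
    rw [Real.dist_eq, dist_eq_norm] at h1
    have h2 : ‖Real.cos (θ N) • z.1 + Real.sin (θ N) • z.2 - z.1‖ ≤ θ N * (‖z.1‖ + ‖z.2‖) := by
      have h3 : Real.cos (θ N) • z.1 + Real.sin (θ N) • z.2 - z.1 =
          (Real.cos (θ N) - 1) • z.1 + Real.sin (θ N) • z.2 := by
        rw [sub_smul, one_smul]; abel
      rw [h3]
      have h4 : |Real.cos (θ N) - 1| ≤ θ N := by
        have hle : θ N ≤ Real.pi / 2 := by
          rw [← hcθ N]
          have h5 : 1 ≤ c N := by simp only [c]; linarith [Nat.cast_nonneg (α := ℝ) N]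
          nlinarith [hθpos N]
        have h6 := Real.one_sub_sq_div_two_le_cos (x := θ N)
        have h7 := Real.cos_le_one (θ N)
        rw [abs_le]
        constructor
        · have h8 : θ N ≤ 2 := by linarith [Real.pi_le_four]
          nlinarith [hθpos N]
        · linarith [hθpos N]
      have h5 : |Real.sin (θ N)| ≤ θ N := by
        have := Real.abs_sin_le_abs (x := θ N)
        rwa [abs_of_pos (hθpos N)] at this
      calc ‖(Real.cos (θ N) - 1) • z.1 + Real.sin (θ N) • z.2‖
          ≤ ‖(Real.cos (θ N) - 1) • z.1‖ + ‖Real.sin (θ N) • z.2‖ := norm_add_le _ _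
        _ = |Real.cos (θ N) - 1| * ‖z.1‖ + |Real.sin (θ N)| * ‖z.2‖ := by
            rw [norm_smul, norm_smul, Real.norm_eq_abs, Real.norm_eq_abs]
        _ ≤ θ N * ‖z.1‖ + θ N * ‖z.2‖ := by gcongr
        _ = θ N * (‖z.1‖ + ‖z.2‖) := by ring
    calc c N * |g (Real.cos (θ N) • z.1 + Real.sin (θ N) • z.2) - g z.1|
        ≤ c N * ((K : ℝ) * (θ N * (‖z.1‖ + ‖z.2‖))) := by
          apply mul_le_mul_of_nonneg_left _ (hcpos N).le
          exact h1.trans (mul_le_mul_of_nonneg_left h2 K.coe_nonneg)
      _ = (K : ℝ) * (c N * θ N) * (‖z.1‖ + ‖z.2‖) := by ring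
      _ = _ := by rw [hcθ N]
  have hFbound : ∀ N (z : Eu k × Eu k), ‖F N z‖ ≤ ((K : ℝ) * (Real.pi / 2) * (‖z.1‖ + ‖z.2‖)) ^ q := by
    intro N z
    have h0 : 0 ≤ F N z := by simp only [F]; positivity
    rw [Real.norm_of_nonneg h0]
    exact Real.rpow_le_rpow (abs_nonneg _) (hlip N z) hq0.le
  have hFint : ∀ N, Integrable (F N) G := fun N =>
    hbound.mono' (hFcont N).aestronglyMeasurable (Eventually.of_forall (hFbound N))
  -- step 1: the increment is bounded by every `∫ F N`
  have hstep : ∀ N, ∫ z, |g z.1 - g z.2| ^ q ∂G ≤ ∫ z, F N z ∂G := by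
    intro N
    let X : ℕ → Eu k × Eu k → Eu k := fun j z =>
      Real.cos (j * θ N) • z.1 + Real.sin (j * θ N) • z.2
    have hX0 : ∀ z, X 0 z = z.1 := by intro z; simp [X]
    have hXN : ∀ z, X (N + 1) z = z.2 := by
      intro z
      have : ((N + 1 : ℕ) : ℝ) * θ N = Real.pi / 2 := by
        rw [← hcθ N]; simp [c]
      simp only [X, this]
      simp
    let Δ : ℕ → Eu k × Eu k → ℝ := fun j z => g (X (j + 1) z) - g (X j z)
    have hΔeq : ∀ j, ∫ z, |c N * Δ j z| ^ q ∂G = ∫ z, F N z ∂G ∧
        Integrable (fun z => |c N * Δ j z| ^ q) G := by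
      intro j
      have hrot := IsGaussian.map_rotation_eq_self (μ := γ)
        (by rw [hγ]; exact integral_id_stdGaussian) (j * θ N)
      have h1 : ∀ z, |c N * Δ j z| ^ q = F N (ContinuousLinearMap.rotation (j * θ N) z) := by
        intro z
        simp only [F, Δ, ContinuousLinearMap.rotation_apply]
        congr 3
        have h2 : X (j + 1) z = Real.cos (θ N) • (Real.cos (j * θ N) • z.1 +
            Real.sin (j * θ N) • z.2) + Real.sin (θ N) • (-Real.sin (j * θ N) • z.1 +
            Real.cos (j * θ N) • z.2) := by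
          have h3 : ((j + 1 : ℕ) : ℝ) * θ N = j * θ N + θ N := by push_cast; ring
          simp only [X, h3, Real.cos_add, Real.sin_add]
          module
        rw [h2]
      constructor
      · simp_rw [h1]
        have h3 := integral_map (μ := G) (φ := ContinuousLinearMap.rotation (E := Eu k) (j * θ N))
          (f := F N) (by fun_prop) (hFcont N).aestronglyMeasurable
        rw [← h3]
        rw [hrot]
      · simp_rw [h1]
        have h3 : Integrable (F N) (G.map (ContinuousLinearMap.rotation (j * θ N))) := by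
          rw [hrot]; exact hFint N
        exact (integrable_map_measure (hFcont N).aestronglyMeasurable (by fun_prop)).1 h3
    have hpt : ∀ z, |g z.1 - g z.2| ^ q ≤
        (c N)⁻¹ * ∑ j ∈ Finset.range (N + 1), |c N * Δ j z| ^ q := by
      intro z
      have h1 : g z.2 - g z.1 = ∑ j ∈ Finset.range (N + 1), Δ j z := by
        simp only [Δ]
        rw [Finset.sum_range_sub (fun j => g (X j z))]
        rw [hX0, hXN]
      have h2 : |g z.1 - g z.2| ≤ ∑ j ∈ Finset.range (N + 1), |Δ j z| := by
        rw [abs_sub_comm, h1]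
        exact Finset.abs_sum_le_sum_abs _ _
      have h3 := Real.rpow_sum_le_const_mul_sum_rpow (Finset.range (N + 1))
        (fun j => Δ j z) hq
      rw [Finset.card_range] at h3
      have h4 : ((N + 1 : ℕ) : ℝ) = c N := by simp [c]
      rw [h4] at h3
      calc |g z.1 - g z.2| ^ q ≤ (∑ j ∈ Finset.range (N + 1), |Δ j z|) ^ q :=
            Real.rpow_le_rpow (abs_nonneg _) h2 hq0.le
        _ ≤ c N ^ (q - 1) * ∑ j ∈ Finset.range (N + 1), |Δ j z| ^ q := h3
        _ = (c N)⁻¹ * ∑ j ∈ Finset.range (N + 1), |c N * Δ j z| ^ q := by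
            rw [Finset.mul_sum, Finset.mul_sum]
            apply Finset.sum_congr rfl
            intro j _
            rw [abs_mul, abs_of_pos (hcpos N), Real.mul_rpow (hcpos N).le (abs_nonneg _),
              ← mul_assoc]
            congr 1
            rw [Real.rpow_sub_one (hcpos N).ne']
            field_simp
    have hint : Integrable (fun z => (c N)⁻¹ * ∑ j ∈ Finset.range (N + 1), |c N * Δ j z| ^ q) G := by
      apply Integrable.const_mul
      exact integrable_finsetSum _ (fun j _ => (hΔeq j).2)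
    calc ∫ z, |g z.1 - g z.2| ^ q ∂G
        ≤ ∫ z, (c N)⁻¹ * ∑ j ∈ Finset.range (N + 1), |c N * Δ j z| ^ q ∂G := by
          apply integral_mono_of_nonneg
          · exact Eventually.of_forall (fun z => by positivity)
          · exact hint
          · exact Eventually.of_forall hpt
      _ = (c N)⁻¹ * ∑ j ∈ Finset.range (N + 1), ∫ z, |c N * Δ j z| ^ q ∂G := by
          rw [integral_const_mul, integral_finsetSum _ (fun j _ => (hΔeq j).2)]
      _ = (c N)⁻¹ * ∑ j ∈ Finset.range (N + 1), ∫ z, F N z ∂G := by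
          congr 1
          exact Finset.sum_congr rfl (fun j _ => (hΔeq j).1)
      _ = ∫ z, F N z ∂G := by
          rw [Finset.sum_const, Finset.card_range, nsmul_eq_mul]
          have h4 : ((N + 1 : ℕ) : ℝ) = c N := by simp [c]
          rw [h4, ← mul_assoc, inv_mul_cancel₀ (hcpos N).ne', one_mul]
  -- step 2: limit
  let Flim : Eu k × Eu k → ℝ := fun z => |fderiv ℝ g z.1 ((Real.pi / 2) • z.2)| ^ q
  have hdiff : ∀ᵐ z ∂G, DifferentiableAt ℝ g z.1 := by
    have h1 : ∀ᵐ x ∂γ, DifferentiableAt ℝ g x :=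
      (stdGaussian_absolutelyContinuous k).ae_le (hg.ae_differentiableAt (μ := volume))
    exact (measurePreserving_fst (μ := γ) (ν := γ)).quasiMeasurePreserving.ae h1
  have hθ0 : Tendsto θ atTop (𝓝 0) := by
    have h1 : Tendsto (fun N : ℕ => (N : ℝ) + 1) atTop atTop :=
      tendsto_atTop_add_const_right _ _ tendsto_natCast_atTop_atTop
    exact h1.const_div_atTop (Real.pi / 2)
  have hlim : ∀ᵐ z ∂G, Tendsto (fun N => F N z) atTop (𝓝 (Flim z)) := by
    filter_upwards [hdiff] with z hz
    have h1 : Tendsto (fun N => c N • (g (z.1 + (Real.cos (θ N) • z.1 + Real.sin (θ N) • z.2 - z.1))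
        - g z.1)) atTop (𝓝 (fderiv ℝ g z.1 ((Real.pi / 2) • z.2))) := by
      apply (hasFDerivWithinAt_univ.2 hz.hasFDerivAt).lim
      · have h2 : Tendsto (fun N => Real.cos (θ N) • z.1 + Real.sin (θ N) • z.2 - z.1) atTop
            (𝓝 (Real.cos 0 • z.1 + Real.sin 0 • z.2 - z.1)) := by
          apply Tendsto.sub_const
          apply Tendsto.add
          · exact ((Real.continuous_cos.tendsto 0).comp hθ0).smul_const _
          · exact ((Real.continuous_sin.tendsto 0).comp hθ0).smul_const _
        simpa using h2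
      · exact Eventually.of_forall (fun _ => Set.mem_univ _)
      · have h3 : Tendsto (fun N => c N * (Real.cos (θ N) - 1)) atTop (𝓝 0) := by
          have h4 : Tendsto (fun N => Real.pi / 2 * (θ N / 2)) atTop (𝓝 0) := by
            have := (hθ0.div_const 2).const_mul (Real.pi / 2)
            simpa using this
          have h5 : ∀ N, |c N * (Real.cos (θ N) - 1)| ≤ Real.pi / 2 * (θ N / 2) := by
            intro N
            rw [abs_mul, abs_of_pos (hcpos N)]
            have h6 := Real.one_sub_sq_div_two_le_cos (x := θ N)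
            have h7 := Real.cos_le_one (θ N)
            have h8 : |Real.cos (θ N) - 1| ≤ θ N ^ 2 / 2 := by
              rw [abs_le]; constructor <;> nlinarith [sq_nonneg (θ N)]
            calc c N * |Real.cos (θ N) - 1| ≤ c N * (θ N ^ 2 / 2) :=
                  mul_le_mul_of_nonneg_left h8 (hcpos N).le
              _ = c N * θ N * (θ N / 2) := by ring
              _ = _ := by rw [hcθ N]
          exact squeeze_zero_norm (fun N => by rw [Real.norm_eq_abs]; exact h5 N) h4
        have h9 : Tendsto (fun N => c N * Real.sin (θ N)) atTop (𝓝 (Real.pi / 2)) := by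
          have h10 : Tendsto (fun N => Real.pi / 2 * (Real.sin (θ N) / θ N)) atTop
              (𝓝 (Real.pi / 2 * 1)) := by
            apply Tendsto.const_mul
            have h11 : Tendsto (fun x => Real.sin x / x) (𝓝[≠] 0) (𝓝 1) := by
              have h12 := Real.hasDerivAt_sin 0
              rw [hasDerivAt_iff_tendsto_slope] at h12
              simp only [Real.cos_zero] at h12
              refine h12.congr (fun x => ?_)
              simp [slope_def_field]
            apply h11.comp
            rw [tendsto_nhdsWithin_iff]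
            exact ⟨hθ0, Eventually.of_forall (fun N => (hθpos N).ne')⟩
          rw [mul_one] at h10
          refine h10.congr (fun N => ?_)
          rw [← hcθ N]
          have := (hθpos N).ne'
          field_simp
        have h13 : ∀ N, c N • (Real.cos (θ N) • z.1 + Real.sin (θ N) • z.2 - z.1) =
            (c N * (Real.cos (θ N) - 1)) • z.1 + (c N * Real.sin (θ N)) • z.2 := by
          intro N; module
        simp_rw [h13]
        have h14 := (h3.smul_const z.1).add (h9.smul_const z.2)
        simpa using h14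
    have h2 : ∀ N, c N • (g (z.1 + (Real.cos (θ N) • z.1 + Real.sin (θ N) • z.2 - z.1)) - g z.1) =
        c N * (g (Real.cos (θ N) • z.1 + Real.sin (θ N) • z.2) - g z.1) := by
      intro N
      rw [add_sub_cancel, smul_eq_mul]
    simp_rw [h2] at h1
    exact (h1.abs).rpow_const (Or.inr hq0.le)
  have hconv : Tendsto (fun N => ∫ z, F N z ∂G) atTop (𝓝 (∫ z, Flim z ∂G)) :=
    tendsto_integral_of_dominated_convergence _ (fun N => (hFcont N).aestronglyMeasurable) hbound
      (fun N => Eventually.of_forall (hFbound N)) hlim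
  have hle : ∫ z, |g z.1 - g z.2| ^ q ∂G ≤ ∫ z, Flim z ∂G :=
    ge_of_tendsto' hconv hstep
  refine hle.trans ?_
  -- step 3: Fubini
  have hFlimm : AEStronglyMeasurable Flim G :=
    aestronglyMeasurable_of_tendsto_ae atTop (fun N => (hFcont N).aestronglyMeasurable) hlim
  have hFlimb : ∀ z, ‖Flim z‖ ≤ ((K : ℝ) * (Real.pi / 2) * (‖z.1‖ + ‖z.2‖)) ^ q := by
    intro z
    have h0 : 0 ≤ Flim z := by simp only [Flim]; positivity
    rw [Real.norm_of_nonneg h0]
    apply Real.rpow_le_rpow (abs_nonneg _) _ hq0.le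
    have h1 : ‖fderiv ℝ g z.1‖ ≤ K := norm_fderiv_le_of_lipschitz ℝ hg
    have h2 := (fderiv ℝ g z.1).le_opNorm ((Real.pi / 2) • z.2)
    have hpi := Real.pi_pos
    have h3 : ‖(Real.pi / 2) • z.2‖ = Real.pi / 2 * ‖z.2‖ := by
      rw [norm_smul, Real.norm_of_nonneg (by positivity)]
    rw [h3, Real.norm_eq_abs] at h2
    calc |fderiv ℝ g z.1 ((Real.pi / 2) • z.2)| ≤ ‖fderiv ℝ g z.1‖ * (Real.pi / 2 * ‖z.2‖) := h2
      _ ≤ K * (Real.pi / 2 * ‖z.2‖) := by gcongr
      _ ≤ K * (Real.pi / 2) * (‖z.1‖ + ‖z.2‖) := by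
          rw [mul_assoc]
          have : 0 ≤ ‖z.1‖ := norm_nonneg _
          gcongr
          linarith
  have hFlimi : Integrable Flim G :=
    hbound.mono' hFlimm (Eventually.of_forall hFlimb)
  have hfub : ∫ z, Flim z ∂G = ∫ x, ∫ y, Flim (x, y) ∂γ ∂γ := integral_prod _ hFlimi
  rw [hfub]
  have hinner : ∀ x, ∫ y, Flim (x, y) ∂γ ≤ (Real.pi / 2) ^ q * (K : ℝ) ^ q * gmom q := by
    intro x
    have hpi := Real.pi_pos
    have h1 : ∀ y, Flim (x, y) = (Real.pi / 2) ^ q * |fderiv ℝ g x y| ^ q := by
      intro y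
      simp only [Flim]
      rw [map_smul, smul_eq_mul, abs_mul, abs_of_pos (by positivity),
        Real.mul_rpow (by positivity) (abs_nonneg _)]
    simp_rw [h1]
    rw [integral_const_mul, integral_abs_dual_rpow k q]
    have h2 : ‖fderiv ℝ g x‖ ≤ K := norm_fderiv_le_of_lipschitz ℝ hg
    have h3 : ‖fderiv ℝ g x‖ ^ q ≤ (K : ℝ) ^ q := Real.rpow_le_rpow (norm_nonneg _) h2 hq0.le
    have h4 := gmom_nonneg q
    rw [mul_assoc]
    gcongr
  calc ∫ x, ∫ y, Flim (x, y) ∂γ ∂γ ≤ ∫ _x, (Real.pi / 2) ^ q * (K : ℝ) ^ q * gmom q ∂γ := by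
        apply integral_mono_of_nonneg
        · exact Eventually.of_forall (fun x => integral_nonneg (fun y => by
            simp only [Flim, Pi.zero_apply]; positivity))
        · exact integrable_const _
        · exact Eventually.of_forall hinner
    _ = _ := by simp

end Vale.Agent.P249
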