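import Mathlib

open MeasureTheory Finset

namespace Vale.Agent.P249

theorem exists_prod_le {Ω : Type*} [MeasurableSpace Ω] (ν : Measure Ω) [IsProbabilityMeasure ν]
    {J : Type*} [Fintype J] (φ : J → Ω → ℝ) (hφ0 : ∀ j t, 0 ≤ φ j t)
    (hφi : ∀ j, Integrable (φ j) ν) (hφ1 : ∀ j, ∫ t, φ j t ∂ν ≤ 1) :
    ∀ (N : ℕ) (w : J → ℝ), (∀ j, 0 ≤ w j) →
      ∃ t : Fin N → Ω, ∑ j, w j * ∏ k, φ j (t k) ≤ ∑ j, w j := by
  intro N
  induction N with
  | zero => intro w _; exact ⟨Fin.elim0, by simp⟩
  | succ N ih =>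
    intro w hw
    have hint : Integrable (fun t => ∑ j, w j * φ j t) ν := by
      apply integrable_finset_sum
      intro j _
      exact (hφi j).const_mul (w j)
    obtain ⟨t0, ht0⟩ := exists_le_integral hint
    have h1 : ∫ t, ∑ j, w j * φ j t ∂ν ≤ ∑ j, w j := by
      rw [integral_finset_sum _ (fun j _ => (hφi j).const_mul (w j))]
      apply Finset.sum_le_sum
      intro j _
      rw [integral_const_mul]
      calc w j * ∫ t, φ j t ∂ν ≤ w j * 1 := mul_le_mul_of_nonneg_left (hφ1 j) (hw j)
        _ = w j := mul_one _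
    obtain ⟨t, ht⟩ := ih (fun j => w j * φ j t0) (fun j => mul_nonneg (hw j) (hφ0 j t0))
    refine ⟨Fin.cons t0 t, ?_⟩
    calc ∑ j, w j * ∏ k, φ j ((Fin.cons t0 t : Fin (N + 1) → Ω) k)
        = ∑ j, w j * φ j t0 * ∏ k, φ j (t k) := by
          apply Finset.sum_congr rfl
          intro j _
          rw [Fin.prod_univ_succ]
          simp only [Fin.cons_zero, Fin.cons_succ]
          ring
      _ ≤ ∑ j, w j * φ j t0 := ht
      _ ≤ ∑ j, w j := ht0.trans h1

theorem exp_mul_le (a θ : ℝ) (h0 : 0 ≤ θ) (h1 : θ ≤ 1) :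
    Real.exp (a * θ) ≤ 1 + θ * (Real.exp a - 1) := by
  have h := convexOn_exp.2 (Set.mem_univ (0 : ℝ)) (Set.mem_univ a) (by linarith : 0 ≤ 1 - θ) h0
    (by ring)
  simp only [smul_eq_mul, mul_zero, zero_add, Real.exp_zero, mul_one] at h
  rw [mul_comm a θ]
  linarith

theorem exists_sample {Ω : Type*} [MeasurableSpace Ω] (ν : Measure Ω) [IsProbabilityMeasure ν]
    {J : Type*} [Fintype J] [Nonempty J] (Z : J → Ω → ℝ) (R : ℝ) (hR : 0 < R)
    (hZm : ∀ j, Measurable (Z j)) (hZ0 : ∀ j t, 0 ≤ Z j t) (hZR : ∀ j t, Z j t ≤ R)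
    (hZ1 : ∀ j, ∫ t, Z j t ∂ν = 1) (a : ℝ) (ha0 : 0 < a) (ha1 : a ≤ 1) (N : ℕ)
    (hN : R * Real.log (2 * Fintype.card J) / a ^ 2 ≤ N) :
    ∃ t : Fin N → Ω, ∀ j, (1 - 2 * a) * N ≤ ∑ k, Z j (t k) ∧
      ∑ k, Z j (t k) ≤ (1 + 2 * a) * N := by
  classical
  have hZi : ∀ j, Integrable (Z j) ν := by
    intro j
    apply Integrable.of_bound (hZm j).aestronglyMeasurable R
    exact Filter.Eventually.of_forall (fun t => by
      rw [Real.norm_of_nonneg (hZ0 j t)]; exact hZR j t)
  -- generic exponential bound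
  have hexp : ∀ (b : ℝ) (j : J), Integrable (fun t => Real.exp (b * (Z j t / R))) ν ∧
      ∫ t, Real.exp (b * (Z j t / R)) ∂ν ≤ 1 + (Real.exp b - 1) / R := by
    intro b j
    have hle : ∀ t, Real.exp (b * (Z j t / R)) ≤ 1 + (Z j t / R) * (Real.exp b - 1) := by
      intro t
      apply exp_mul_le
      · exact div_nonneg (hZ0 j t) hR.le
      · rw [div_le_one hR]; exact hZR j t
    have hi2 : Integrable (fun t => 1 + (Z j t / R) * (Real.exp b - 1)) ν := by
      apply (integrable_const _).add
      exact ((hZi j).div_const R).mul_const _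
    have hi1 : Integrable (fun t => Real.exp (b * (Z j t / R))) ν := by
      apply hi2.mono'
      · exact (((hZm j).div_const R).const_mul b).exp.aestronglyMeasurable
      · exact Filter.Eventually.of_forall (fun t => by
          rw [Real.norm_of_nonneg (Real.exp_pos _).le]; exact hle t)
    refine ⟨hi1, ?_⟩
    calc ∫ t, Real.exp (b * (Z j t / R)) ∂ν ≤ ∫ t, (1 + (Z j t / R) * (Real.exp b - 1)) ∂ν :=
          integral_mono hi1 hi2 hle
      _ = 1 + (Real.exp b - 1) / R := by
          rw [integral_add (integrable_const _) (((hZi j).div_const R).mul_const _),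
            integral_mul_const, integral_div, hZ1 j]
          simp
          ring
  let u : ℝ := (Real.exp a - 1) / R
  let v : ℝ := (1 - Real.exp (-a)) / R
  let φ : J × Bool → Ω → ℝ := fun x t =>
    if x.2 then Real.exp (a * (Z x.1 t / R)) * Real.exp (-u)
    else Real.exp ((-a) * (Z x.1 t / R)) * Real.exp v
  have hφ0 : ∀ x t, 0 ≤ φ x t := by
    intro x t
    simp only [φ]
    split_ifs <;> positivity
  have hφi : ∀ x, Integrable (φ x) ν := by
    intro x
    rcases x with ⟨j, b⟩
    cases b
    · simp only [φ, Bool.false_eq_true, if_false]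
      exact (hexp (-a) j).1.mul_const _
    · simp only [φ, if_true]
      exact (hexp a j).1.mul_const _
  have hφ1 : ∀ x, ∫ t, φ x t ∂ν ≤ 1 := by
    intro x
    rcases x with ⟨j, b⟩
    cases b
    · simp only [φ, Bool.false_eq_true, if_false]
      rw [integral_mul_const]
      have h1 := (hexp (-a) j).2
      have h2 : 1 + (Real.exp (-a) - 1) / R ≤ Real.exp (-v) := by
        have := Real.add_one_le_exp (-v)
        have h3 : -v = (Real.exp (-a) - 1) / R := by simp only [v]; ring
        rw [h3] at this ⊢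
        linarith
      calc (∫ t, Real.exp (-a * (Z j t / R)) ∂ν) * Real.exp v
          ≤ Real.exp (-v) * Real.exp v :=
            mul_le_mul_of_nonneg_right (h1.trans h2) (Real.exp_pos _).le
        _ = 1 := by rw [← Real.exp_add]; simp
    · simp only [φ, if_true]
      rw [integral_mul_const]
      have h1 := (hexp a j).2
      have h2 : 1 + (Real.exp a - 1) / R ≤ Real.exp u := by
        have := Real.add_one_le_exp u
        simp only [u] at this ⊢
        linarith
      calc (∫ t, Real.exp (a * (Z j t / R)) ∂ν) * Real.exp (-u)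
          ≤ Real.exp u * Real.exp (-u) :=
            mul_le_mul_of_nonneg_right (h1.trans h2) (Real.exp_pos _).le
        _ = 1 := by rw [← Real.exp_add]; simp
  obtain ⟨t, ht⟩ := exists_prod_le ν φ hφ0 hφi hφ1 N (fun _ => 1) (fun _ => zero_le_one)
  refine ⟨t, ?_⟩
  have hcard : (∑ _x : J × Bool, (1 : ℝ)) = 2 * Fintype.card J := by
    simp [mul_comm]
  rw [hcard] at ht
  simp only [one_mul] at ht
  have hcpos : (0 : ℝ) < 2 * Fintype.card J := by
    have : 0 < Fintype.card J := Fintype.card_pos
    positivity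
  have hsingle : ∀ x : J × Bool, ∏ k, φ x (t k) ≤ 2 * Fintype.card J := by
    intro x
    refine le_trans ?_ ht
    exact Finset.single_le_sum (f := fun x => ∏ k, φ x (t k))
      (fun y _ => Finset.prod_nonneg (fun k _ => hφ0 y (t k))) (Finset.mem_univ x)
  have hNpos : (0 : ℝ) ≤ N := Nat.cast_nonneg N
  have hquad1 := Real.abs_exp_sub_one_sub_id_le (x := a) (by rw [abs_of_pos ha0]; exact ha1)
  have hquad2 := Real.abs_exp_sub_one_sub_id_le (x := -a) (by rw [abs_neg, abs_of_pos ha0]; exact ha1)
  rw [abs_le] at hquad1 hquad2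
  have hlogN : R * Real.log (2 * Fintype.card J) ≤ a ^ 2 * N := by
    rw [div_le_iff₀ (by positivity)] at hN
    linarith
  intro j
  constructor
  · have h := hsingle (j, false)
    simp only [φ, Bool.false_eq_true, if_false] at h
    have h2 : ∏ k, (Real.exp (-a * (Z j (t k) / R)) * Real.exp v) =
        Real.exp (-a / R * (∑ k, Z j (t k)) + N * v) := by
      rw [Finset.prod_mul_distrib, ← Real.exp_sum, Finset.prod_const, Finset.card_univ,
        Fintype.card_fin, ← Real.exp_nat_mul, ← Real.exp_add]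
      congr 1
      rw [Finset.mul_sum]
      congr 1
      apply Finset.sum_congr rfl
      intro k _
      ring
    rw [h2] at h
    have h3 := (Real.le_log_iff_exp_le hcpos).2 h
    have h4 : -a * (∑ k, Z j (t k)) + N * (1 - Real.exp (-a)) ≤
        R * Real.log (2 * Fintype.card J) := by
      have h5 := mul_le_mul_of_nonneg_left h3 hR.le
      calc -a * (∑ k, Z j (t k)) + N * (1 - Real.exp (-a))
          = R * (-a / R * (∑ k, Z j (t k)) + N * v) := by
            simp only [v]; field_simp
        _ ≤ _ := h5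
    have h6 : a - a ^ 2 ≤ 1 - Real.exp (-a) := by nlinarith [hquad2.2]
    have h7 : N * (a - a ^ 2) ≤ N * (1 - Real.exp (-a)) := mul_le_mul_of_nonneg_left h6 hNpos
    have h8 : a * ((1 - 2 * a) * N) ≤ a * ∑ k, Z j (t k) := by nlinarith
    exact le_of_mul_le_mul_left h8 ha0
  · have h := hsingle (j, true)
    simp only [φ, if_true] at h
    have h2 : ∏ k, (Real.exp (a * (Z j (t k) / R)) * Real.exp (-u)) =
        Real.exp (a / R * (∑ k, Z j (t k)) - N * u) := by
      rw [Finset.prod_mul_distrib, ← Real.exp_sum, Finset.prod_const, Finset.card_univ,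
        Fintype.card_fin, ← Real.exp_nat_mul, ← Real.exp_add]
      congr 1
      rw [Finset.mul_sum]
      have : ∑ i, a * (Z j (t i) / R) = ∑ i, a / R * Z j (t i) := by
        apply Finset.sum_congr rfl
        intro k _
        ring
      rw [this]; ring
    rw [h2] at h
    have h3 := (Real.le_log_iff_exp_le hcpos).2 h
    have h4 : a * (∑ k, Z j (t k)) - N * (Real.exp a - 1) ≤
        R * Real.log (2 * Fintype.card J) := by
      have h5 := mul_le_mul_of_nonneg_left h3 hR.le
      calc a * (∑ k, Z j (t k)) - N * (Real.exp a - 1)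
          = R * (a / R * (∑ k, Z j (t k)) - N * u) := by
            simp only [u]; field_simp
        _ ≤ _ := h5
    have h6 : Real.exp a - 1 ≤ a + a ^ 2 := by nlinarith [hquad1.2]
    have h7 : N * (Real.exp a - 1) ≤ N * (a + a ^ 2) := mul_le_mul_of_nonneg_left h6 hNpos
    have h8 : a * ∑ k, Z j (t k) ≤ a * ((1 + 2 * a) * N) := by nlinarith
    exact le_of_mul_le_mul_left h8 ha0

end Vale.Agent.P249
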