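import Vale.Agent.P249.Spanner

open Finset

namespace Vale.Agent.P249

variable {V : Type*}

theorem eq_penultimate (H : SimpleGraph V) (r : ℕ) (hr : 1 ≤ r) (hU : UniqPaths H r) {v w a : V}
    (p : H.Walk v w) (hp : p.IsPath) (hl : p.length ≤ r) (hwa : H.Adj w a)
    (ha : a ∈ p.support) : a = p.penultimate := by
  classical
  have h1 : (p.dropUntil a ha) = SimpleGraph.Walk.cons hwa.symm SimpleGraph.Walk.nil := by
    apply hU _ _ _ _ (hp.dropUntil ha)
    · simp [hwa.ne.symm]
    · exact (SimpleGraph.Walk.length_dropUntil_le_length _ _).trans hl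
    · simpa using hr
  have h2 := SimpleGraph.Walk.take_spec p ha
  rw [← h2, h1]
  have : (p.takeUntil a ha).append (SimpleGraph.Walk.cons hwa.symm SimpleGraph.Walk.nil)
      = (p.takeUntil a ha).concat hwa.symm := by
    rw [SimpleGraph.Walk.concat_eq_append]
  rw [this]
  exact (SimpleGraph.Walk.penultimate_concat _ _).symm

theorem exists_deg_le_two [DecidableEq V] (H : SimpleGraph V) [DecidableRel H.Adj] (r : ℕ)
    (hU : UniqPaths H r) (W : Finset V) (hW : W.Nonempty) (hcard : W.card < 2 ^ r) :
    ∃ v ∈ W, (W.filter (fun u => H.Adj v u)).card ≤ 2 := by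
  classical
  by_contra hcon
  push Not at hcon
  obtain ⟨v0, hv0⟩ := hW
  let Q : ℕ → V → Prop := fun i w => ∃ p : H.Walk v0 w, p.IsPath ∧ p.length = i ∧
    ∀ u ∈ p.support, u ∈ W
  let T : ℕ → Finset V := fun i => W.filter (Q i)
  have hT0 : 1 ≤ (T 0).card := by
    rw [Nat.succ_le_iff, Finset.card_pos]
    refine ⟨v0, Finset.mem_filter.2 ⟨hv0, SimpleGraph.Walk.nil, by simp, by simp, ?_⟩⟩
    intro u hu
    simp at hu
    rw [hu]; exact hv0
  have hstep : ∀ i, i + 1 ≤ r → 2 * (T i).card ≤ (T (i + 1)).card := by
    intro i hi
    have key : ∀ w ∈ T i, ∃ a b : V, a ≠ b ∧ H.Adj w a ∧ H.Adj w b ∧ a ∈ W ∧ b ∈ W ∧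
        ∃ p : H.Walk v0 w, p.IsPath ∧ p.length = i ∧ (∀ u ∈ p.support, u ∈ W) ∧
        a ∉ p.support ∧ b ∉ p.support := by
      intro w hw
      obtain ⟨hwW, p, hp, hpl, hps⟩ := Finset.mem_filter.1 hw
      have hN := hcon w hwW
      have h2 : 1 < ((W.filter (fun u => H.Adj w u)).erase p.penultimate).card := by
        have := Finset.pred_card_le_card_erase (s := W.filter (fun u => H.Adj w u))
          (a := p.penultimate)
        omega
      obtain ⟨a, ha, b, hb, hab⟩ := Finset.one_lt_card.1 h2
      rw [Finset.mem_erase, Finset.mem_filter] at ha hb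
      refine ⟨a, b, hab, ha.2.2, hb.2.2, ha.2.1, hb.2.1, p, hp, hpl, hps, ?_, ?_⟩
      · intro h
        exact ha.1 (eq_penultimate H r (by omega) hU p hp (by omega) ha.2.2 h)
      · intro h
        exact hb.1 (eq_penultimate H r (by omega) hU p hp (by omega) hb.2.2 h)
    choose! A B hAB hA hB hAW hBW hP using key
    let ext : V × Bool → V := fun x => if x.2 then A x.1 else B x.1
    have hext : ∀ w ∈ T i, ∀ β : Bool, H.Adj w (ext (w, β)) ∧ ext (w, β) ∈ W ∧
        ∃ p : H.Walk v0 w, p.IsPath ∧ p.length = i ∧ (∀ u ∈ p.support, u ∈ W) ∧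
        ext (w, β) ∉ p.support := by
      intro w hw β
      obtain ⟨p, h1, h2, h3, h4, h5⟩ := hP w hw
      cases β
      · exact ⟨hB w hw, hBW w hw, p, h1, h2, h3, h5⟩
      · exact ⟨hA w hw, hAW w hw, p, h1, h2, h3, h4⟩
    have hcardprod : ((T i) ×ˢ (Finset.univ : Finset Bool)).card = 2 * (T i).card := by
      rw [Finset.card_product]; simp [mul_comm]
    rw [← hcardprod]
    apply Finset.card_le_card_of_injOn ext
    · rintro ⟨w, β⟩ hw
      simp only [Finset.coe_product, Set.mem_prod, Finset.mem_coe] at hw
      obtain ⟨h1, h2, p, hp, hpl, hps, h3⟩ := hext w hw.1 β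
      refine Finset.mem_coe.2 (Finset.mem_filter.2 ⟨h2, p.concat h1, ?_, ?_, ?_⟩)
      · exact hp.concat h3 h1
      · rw [SimpleGraph.Walk.length_concat, hpl]
      · intro u hu
        rw [SimpleGraph.Walk.support_concat, List.mem_append] at hu
        rcases hu with hu | hu
        · exact hps u hu
        · simp at hu; rw [hu]; exact h2
    · rintro ⟨w, β⟩ hw ⟨w', β'⟩ hw' heq
      simp only [Finset.coe_product, Set.mem_prod, Finset.mem_coe] at hw hw'
      obtain ⟨h1, h2, p, hp, hpl, hps, h3⟩ := hext w hw.1 β
      obtain ⟨h1', h2', p', hp', hpl', hps', h3'⟩ := hext w' hw'.1 β'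
      have heq2 : ext (w, β) = ext (w', β') := heq
      have hww : w = w' := by
        have h4 : H.Adj w (ext (w', β')) := heq2 ▸ h1
        have h5 : ext (w', β') ∉ p.support := heq2 ▸ h3
        have := hU v0 (ext (w', β')) (p.concat h4) (p'.concat h1')
          (hp.concat h5 h4) (hp'.concat h3' h1')
          (by rw [SimpleGraph.Walk.length_concat, hpl]; exact hi)
          (by rw [SimpleGraph.Walk.length_concat, hpl']; exact hi)
        have h6 := congrArg SimpleGraph.Walk.penultimate this
        rwa [SimpleGraph.Walk.penultimate_concat, SimpleGraph.Walk.penultimate_concat] at h6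
      subst hww
      have hβ : β = β' := by
        cases β <;> cases β'
        · rfl
        · exact absurd heq2.symm (hAB w hw.1)
        · exact absurd heq2 (hAB w hw.1)
        · rfl
      rw [hβ]
  have hgrow : ∀ i, i ≤ r → 2 ^ i ≤ (T i).card := by
    intro i
    induction i with
    | zero => intro _; simpa using hT0
    | succ i ih =>
      intro hi
      calc 2 ^ (i + 1) = 2 * 2 ^ i := by ring
        _ ≤ 2 * (T i).card := by have := ih (by omega); omega
        _ ≤ (T (i + 1)).card := hstep i hi
  have h1 := hgrow r le_rfl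
  have h2 : (T r).card ≤ W.card := Finset.card_filter_le _ _
  omega

theorem card_adj_pairs_le [DecidableEq V] (H : SimpleGraph V) [DecidableRel H.Adj] (r : ℕ)
    (hU : UniqPaths H r) : ∀ (n : ℕ) (W : Finset V), W.card = n → n < 2 ^ r →
    ((W ×ˢ W).filter (fun e => H.Adj e.1 e.2)).card ≤ 4 * n := by
  intro n
  induction n with
  | zero =>
    intro W hW _
    rw [Finset.card_eq_zero] at hW
    subst hW
    simp
  | succ n ih =>
    intro W hW hn
    have hne : W.Nonempty := by rw [← Finset.card_pos, hW]; omega
    obtain ⟨v, hv, hdeg⟩ := exists_deg_le_two H r hU W hne (by omega)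
    have h1 := ih (W.erase v) (by rw [Finset.card_erase_of_mem hv, hW]; rfl) (by omega)
    have hsub : (W ×ˢ W).filter (fun e => H.Adj e.1 e.2) ⊆
        (((W.erase v) ×ˢ (W.erase v)).filter (fun e => H.Adj e.1 e.2)) ∪
        (((W.filter (fun u => H.Adj v u)).image (fun u => (v, u))) ∪
        ((W.filter (fun u => H.Adj v u)).image (fun u => (u, v)))) := by
      rintro ⟨a, b⟩ hab
      simp only [Finset.mem_filter, Finset.mem_product] at hab
      simp only [Finset.mem_union, Finset.mem_filter, Finset.mem_product, Finset.mem_erase,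
        Finset.mem_image, Prod.mk.injEq]
      by_cases ha : a = v
      · subst ha
        right; left
        exact ⟨b, ⟨hab.1.2, hab.2⟩, rfl, rfl⟩
      · by_cases hb : b = v
        · subst hb
          right; right
          exact ⟨a, ⟨hab.1.1, hab.2.symm⟩, rfl, rfl⟩
        · left
          exact ⟨⟨⟨ha, hab.1.1⟩, ⟨hb, hab.1.2⟩⟩, hab.2⟩
    have h2 := Finset.card_le_card hsub
    have h3 := Finset.card_union_le
      (((W.erase v) ×ˢ (W.erase v)).filter (fun e => H.Adj e.1 e.2))
      (((W.filter (fun u => H.Adj v u)).image (fun u => (v, u))) ∪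
        ((W.filter (fun u => H.Adj v u)).image (fun u => (u, v))))
    have h4 := Finset.card_union_le
      ((W.filter (fun u => H.Adj v u)).image (fun u => (v, u)))
      ((W.filter (fun u => H.Adj v u)).image (fun u => (u, v)))
    have h5 := Finset.card_image_le (s := W.filter (fun u => H.Adj v u)) (f := fun u => (v, u))
    have h6 := Finset.card_image_le (s := W.filter (fun u => H.Adj v u)) (f := fun u => (u, v))
    omega

theorem walk_abs_le (H : SimpleGraph V) (g : V → ℝ) {u w : V} (p : H.Walk u w) :
    |g u - g w| ≤ (p.darts.map (fun d => |g d.fst - g d.snd|)).sum := by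
  induction p with
  | nil => simp
  | @cons u v w h p ih =>
    rw [SimpleGraph.Walk.darts_cons, List.map_cons, List.sum_cons]
    calc |g u - g w| = |(g u - g v) + (g v - g w)| := by ring_nf
      _ ≤ |g u - g v| + |g v - g w| := abs_add_le _ _
      _ ≤ _ := by simpa using ih

/-- Sparse set of pairs through which all pairs of a finite set are connected by short chains
of pairs that are not longer. -/
theorem exists_sparse_pairs [Fintype V] [DecidableEq V] (ℓ : V → V → ℝ)
    (hsymm : ∀ x y, ℓ x y = ℓ y x) (r : ℕ) (hr : Fintype.card V < 2 ^ r) (hr1 : 1 ≤ r) :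
    ∃ E : Finset (V × V), E.card ≤ 4 * Fintype.card V ∧ (∀ e ∈ E, e.1 ≠ e.2) ∧
      ∀ x y, x ≠ y → ∃ S ⊆ E, S.card ≤ 2 * r - 1 ∧ (∀ e ∈ S, ℓ e.1 e.2 ≤ ℓ x y) ∧
        ∀ g : V → ℝ, |g x - g y| ≤ ∑ e ∈ S, |g e.1 - g e.2| := by
  classical
  let L : Sym2 V → ℝ := Sym2.lift ⟨ℓ, hsymm⟩
  have hL : ∀ x y, L s(x, y) = ℓ x y := fun x y => rfl
  have main : ∀ s : Finset (Sym2 V), ∃ H : SimpleGraph V, H.edgeSet ⊆ s ∧ UniqPaths H r ∧
      ∀ x y, x ≠ y → s(x, y) ∈ s → ∃ p : H.Walk x y, p.length ≤ 2 * r - 1 ∧
        ∀ e ∈ p.edges, L e ≤ L s(x, y) := by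
    intro s
    induction s using Finset.induction_on_max_value L with
    | empty => exact ⟨⊥, by simp, uniqPaths_bot r, fun x y _ h => absurd h (by simp)⟩
    | insert a s has hmax ih =>
      obtain ⟨H, hHs, hU, hH⟩ := ih
      induction a using Sym2.ind with
      | h x y =>
        by_cases hxy : x = y
        · refine ⟨H, hHs.trans (by simp), hU, ?_⟩
          intro x' y' hne hmem
          rw [Finset.mem_insert] at hmem
          rcases hmem with hmem | hmem
          · exfalso
            rw [Sym2.eq_iff] at hmem
            rcases hmem with ⟨h1, h2⟩ | ⟨h1, h2⟩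
            · exact hne (by rw [h1, h2, hxy])
            · exact hne (by rw [h1, h2, hxy])
          · exact hH x' y' hne hmem
        · by_cases hex : ∃ p : H.Walk x y, p.length ≤ 2 * r - 1
          · obtain ⟨p, hp⟩ := hex
            refine ⟨H, hHs.trans (by simp), hU, ?_⟩
            intro x' y' hne hmem
            rw [Finset.mem_insert] at hmem
            rcases hmem with hmem | hmem
            · have hmem' := hmem
              rw [Sym2.eq_iff] at hmem
              rcases hmem with ⟨h1, h2⟩ | ⟨h1, h2⟩
              · subst h1; subst h2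
                refine ⟨p, hp, fun e he => hmax e ?_⟩
                exact_mod_cast hHs (SimpleGraph.Walk.edges_subset_edgeSet p he)
              · subst h1; subst h2
                refine ⟨p.reverse, by simpa using hp, fun e he => ?_⟩
                rw [hmem']
                apply hmax e
                rw [SimpleGraph.Walk.edges_reverse, List.mem_reverse] at he
                exact_mod_cast hHs (SimpleGraph.Walk.edges_subset_edgeSet p he)
            · exact hH x' y' hne hmem
          · push Not at hex
            have hadj : (H ⊔ SimpleGraph.edge x y).Adj x y := by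
              right; rw [SimpleGraph.edge_adj]; exact ⟨Or.inl ⟨rfl, rfl⟩, hxy⟩
            refine ⟨H ⊔ SimpleGraph.edge x y, ?_, uniqPaths_insert H x y r hxy hU hex, ?_⟩
            · intro e he
              rw [SimpleGraph.edgeSet_sup] at he
              rcases he with he | he
              · have := hHs he
                simp only [Finset.coe_insert, Set.mem_insert_iff]
                right; exact this
              · rw [SimpleGraph.edgeSet_edge_of_ne hxy] at he
                simp only [Finset.coe_insert, Set.mem_insert_iff]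
                left; exact he
            · intro x' y' hne hmem
              rw [Finset.mem_insert] at hmem
              rcases hmem with hmem | hmem
              · have hmem' := hmem
                rw [Sym2.eq_iff] at hmem
                rcases hmem with ⟨h1, h2⟩ | ⟨h1, h2⟩
                · subst h1; subst h2
                  refine ⟨SimpleGraph.Walk.cons hadj SimpleGraph.Walk.nil, ?_, ?_⟩
                  · simp; omega
                  · intro e he
                    simp at he
                    rw [he]
                · subst h1; subst h2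
                  refine ⟨SimpleGraph.Walk.cons hadj.symm SimpleGraph.Walk.nil, ?_, ?_⟩
                  · simp; omega
                  · intro e he
                    simp at he
                    rw [he]
              · obtain ⟨p, hp, hpe⟩ := hH x' y' hne hmem
                refine ⟨p.mapLe le_sup_left, ?_, ?_⟩
                · simpa [SimpleGraph.Walk.mapLe] using hp
                · intro e he
                  apply hpe e
                  simpa [SimpleGraph.Walk.mapLe, SimpleGraph.Walk.edges_map] using he
  obtain ⟨H, -, hU, hH⟩ := main Finset.univ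
  let E : Finset (V × V) := ((Finset.univ : Finset V) ×ˢ Finset.univ).filter
    (fun e => H.Adj e.1 e.2)
  refine ⟨E, ?_, ?_, ?_⟩
  · exact card_adj_pairs_le H r hU (Fintype.card V) Finset.univ (Finset.card_univ) hr
  · intro e he
    exact (Finset.mem_filter.1 he).2.ne
  · intro x y hxy
    obtain ⟨p, hp, hpe⟩ := hH x y hxy (Finset.mem_univ _)
    have hq := SimpleGraph.Walk.bypass_isPath p
    have hnd : (p.bypass.darts).Nodup := by
      have := hq.isTrail.edges_nodup
      exact List.Nodup.of_map _ this
    let S : Finset (V × V) := (p.bypass.darts.map (fun d => d.toProd)).toFinset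
    have hnd2 : (p.bypass.darts.map (fun d => d.toProd)).Nodup := by
      apply List.Nodup.map _ hnd
      exact SimpleGraph.Dart.toProd_injective
    refine ⟨S, ?_, ?_, ?_, ?_⟩
    · intro e he
      simp only [S, List.mem_toFinset, List.mem_map] at he
      obtain ⟨d, hd, rfl⟩ := he
      simp [E, d.adj]
    · calc S.card ≤ (p.bypass.darts.map (fun d => d.toProd)).length := List.toFinset_card_le _
        _ = p.bypass.length := by simp
        _ ≤ p.length := SimpleGraph.Walk.length_bypass_le_length p
        _ ≤ _ := hp
    · intro e he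
      simp only [S, List.mem_toFinset, List.mem_map] at he
      obtain ⟨d, hd, rfl⟩ := he
      have h1 : d.edge ∈ p.edges := by
        apply SimpleGraph.Walk.edges_bypass_subset_edges p
        exact List.mem_map_of_mem hd
      have := hpe d.edge h1
      rw [hL] at this
      exact this
    · intro g
      have h1 := walk_abs_le H g p.bypass
      have h2 : ∑ e ∈ S, |g e.1 - g e.2| =
          ((p.bypass.darts.map (fun d => d.toProd)).map (fun e : V × V => |g e.1 - g e.2|)).sum :=
        List.sum_toFinset (fun e : V × V => |g e.1 - g e.2|) hnd2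
      rw [h2, List.map_map]
      exact h1

end Vale.Agent.P249
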