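import Vale.Agent.P249.Defs
import Vale.Agent.P249.Spanner2
import Vale.Agent.P249.Sampling

open MeasureTheory Finset
open scoped ENNReal

namespace Vale.Agent.P249

universe u

theorem one_le_toReal {p : ℝ≥0∞} (hp1 : 1 ≤ p) (hp : p ≠ ∞) : 1 ≤ p.toReal := by
  have := ENNReal.toReal_mono hp hp1
  simpa using this

theorem integral_rpow_sub {Ω : Type*} [MeasurableSpace Ω] {μ : Measure Ω} {p : ℝ≥0∞}
    [hp1 : Fact (1 ≤ p)] (hp : p ≠ ∞) (x y : Lp ℝ p μ) :
    Integrable (fun t => |x t - y t| ^ p.toReal) μ ∧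
      ∫ t, |x t - y t| ^ p.toReal ∂μ = ‖x - y‖ ^ p.toReal := by
  have hp0 : p ≠ 0 := (lt_of_lt_of_le zero_lt_one hp1.out).ne'
  have hq : 1 ≤ p.toReal := one_le_toReal hp1.out hp
  have hae : (fun t => |x t - y t| ^ p.toReal) =ᵐ[μ] fun t => ‖(x - y : Lp ℝ p μ) t‖ ^ p.toReal := by
    filter_upwards [Lp.coeFn_sub x y] with t ht
    rw [ht, Real.norm_eq_abs]
    rfl
  have hmem : MemLp (x - y : Lp ℝ p μ) p μ := Lp.memLp _
  constructor
  · exact (hmem.integrable_norm_rpow hp0 hp).congr hae.symm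
  · rw [integral_congr_ae hae, Lp.norm_def, hmem.eLpNorm_eq_integral_rpow_norm hp0 hp]
    have hnn : 0 ≤ ∫ t, ‖(x - y : Lp ℝ p μ) t‖ ^ p.toReal ∂μ :=
      integral_nonneg (fun t => by positivity)
    rw [ENNReal.toReal_ofReal (by positivity), ← Real.rpow_mul hnn,
      inv_mul_cancel₀ (by linarith), Real.rpow_one]

theorem embedsAll_of_le (p : ℝ≥0∞) [hp1 : Fact (1 ≤ p)] (hp : p ≠ ∞) (D : ℝ) (hD : 1 < D)
    (n : ℕ) (hn : 2 ≤ n) (r : ℕ) (hr : n < 2 ^ r) (N : ℕ)
    (hN : (4 * n * ((2 * r - 1 : ℕ) : ℝ) ^ (p.toReal - 1)) * Real.log (2 * (n : ℝ) ^ 2) /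
      ((D - 1) / (2 * (D + 1))) ^ 2 ≤ N) :
    EmbedsAll.{u} p n D N := by
  classical
  intro Ω _ μ X hX
  have hq : 1 ≤ p.toReal := one_le_toReal hp1.out hp
  set q := p.toReal with hqdef
  have hq0 : 0 < q := by linarith
  have hr1 : 1 ≤ r := by
    by_contra h
    have : r = 0 := by omega
    subst this
    simp at hr
    omega
  let V := {x : Lp ℝ p μ // x ∈ X}
  have hVcard : Fintype.card V = n := by
    rw [Fintype.card_coe, hX]
  let ℓ : V → V → ℝ := fun x y => ‖(x : Lp ℝ p μ) - y‖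
  have hℓsymm : ∀ x y, ℓ x y = ℓ y x := fun x y => norm_sub_rev _ _
  have hℓpos : ∀ x y, x ≠ y → 0 < ℓ x y := by
    intro x y hxy
    exact norm_pos_iff.2 (sub_ne_zero.2 (fun h => hxy (Subtype.ext h)))
  obtain ⟨E, hEcard, hEne, hE⟩ := exists_sparse_pairs ℓ hℓsymm r (by rw [hVcard]; exact hr) hr1
  rw [hVcard] at hEcard
  let m : ℝ := E.card
  let rep : V → Ω → ℝ := fun x t => (x : Lp ℝ p μ) t
  have hrep : ∀ x, Measurable (rep x) := fun x => (Lp.stronglyMeasurable _).measurable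
  let Lam : Ω → ℝ := fun t => ∑ e ∈ E, |rep e.1 t - rep e.2 t| ^ q / ℓ e.1 e.2 ^ q
  have hLam0 : ∀ t, 0 ≤ Lam t := by
    intro t
    apply Finset.sum_nonneg
    intro e _
    have : 0 ≤ ℓ e.1 e.2 := norm_nonneg _
    positivity
  have hLamm : Measurable Lam := by
    apply Finset.measurable_sum
    intro e _
    have h1 : Measurable (fun t => |rep e.1 t - rep e.2 t|) :=
      ((hrep e.1).sub (hrep e.2)).norm
    exact (h1.pow_const q).div_const _
  have hI : ∀ x y : V, Integrable (fun t => |rep x t - rep y t| ^ q) μ ∧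
      ∫ t, |rep x t - rep y t| ^ q ∂μ = ℓ x y ^ q := fun x y => integral_rpow_sub hp _ _
  have hLami : Integrable Lam μ := by
    apply integrable_finsetSum
    intro e _
    exact (hI e.1 e.2).1.div_const _
  have hLamint : ∫ t, Lam t ∂μ = m := by
    rw [integral_finsetSum _ (fun e _ => (hI e.1 e.2).1.div_const _)]
    have : ∀ e ∈ E, ∫ t, |rep e.1 t - rep e.2 t| ^ q / ℓ e.1 e.2 ^ q ∂μ = 1 := by
      intro e he
      rw [integral_div, (hI e.1 e.2).2]
      exact div_self (Real.rpow_pos_of_pos (hℓpos _ _ (hEne e he)) q).ne'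
    rw [Finset.sum_congr rfl this]
    simp [m]
  -- domination of all pairs
  have hdom : ∀ x y : V, x ≠ y → ∀ t, |rep x t - rep y t| ^ q ≤
      ((2 * r - 1 : ℕ) : ℝ) ^ (q - 1) * (ℓ x y ^ q * Lam t) := by
    intro x y hxy t
    obtain ⟨S, hSE, hScard, hSℓ, hS⟩ := hE x y hxy
    have h1 := hS (fun v => rep v t)
    have h2 : |rep x t - rep y t| ^ q ≤ (∑ e ∈ S, |rep e.1 t - rep e.2 t|) ^ q :=
      Real.rpow_le_rpow (abs_nonneg _) h1 hq0.le
    have h3 := Real.rpow_sum_le_const_mul_sum_rpow S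
      (fun e : V × V => rep e.1 t - rep e.2 t) hq
    have h4 : ∑ e ∈ S, |rep e.1 t - rep e.2 t| ^ q ≤ ℓ x y ^ q * Lam t := by
      rw [Finset.mul_sum]
      calc ∑ e ∈ S, |rep e.1 t - rep e.2 t| ^ q
          ≤ ∑ e ∈ S, ℓ x y ^ q * (|rep e.1 t - rep e.2 t| ^ q / ℓ e.1 e.2 ^ q) := by
            apply Finset.sum_le_sum
            intro e he
            have h5 : 0 < ℓ e.1 e.2 := hℓpos _ _ (hEne e (hSE he))
            have h6 : ℓ e.1 e.2 ^ q ≤ ℓ x y ^ q := Real.rpow_le_rpow h5.le (hSℓ e he) hq0.le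
            have h7 : 0 < ℓ e.1 e.2 ^ q := Real.rpow_pos_of_pos h5 q
            rw [mul_div_assoc', le_div_iff₀ h7, mul_comm]
            exact mul_le_mul_of_nonneg_right h6 (by positivity)
        _ ≤ ∑ e ∈ E, ℓ x y ^ q * (|rep e.1 t - rep e.2 t| ^ q / ℓ e.1 e.2 ^ q) := by
            apply Finset.sum_le_sum_of_subset_of_nonneg hSE
            intro e _ _
            have h5 : 0 ≤ ℓ e.1 e.2 := norm_nonneg _
            have h6 : 0 ≤ ℓ x y := norm_nonneg _
            positivity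
    have hL : 0 ≤ ℓ x y ^ q * Lam t := mul_nonneg (Real.rpow_nonneg (norm_nonneg _) q) (hLam0 t)
    calc |rep x t - rep y t| ^ q ≤ (∑ e ∈ S, |rep e.1 t - rep e.2 t|) ^ q := h2
      _ ≤ (S.card : ℝ) ^ (q - 1) * ∑ e ∈ S, |rep e.1 t - rep e.2 t| ^ q := h3
      _ ≤ (S.card : ℝ) ^ (q - 1) * (ℓ x y ^ q * Lam t) :=
          mul_le_mul_of_nonneg_left h4 (by positivity)
      _ ≤ ((2 * r - 1 : ℕ) : ℝ) ^ (q - 1) * (ℓ x y ^ q * Lam t) := by
          apply mul_le_mul_of_nonneg_right _ hL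
          exact Real.rpow_le_rpow (by positivity) (by exact_mod_cast hScard) (by linarith)
  -- two distinct points
  obtain ⟨x0, y0, hxy0⟩ : ∃ x0 y0 : V, x0 ≠ y0 := by
    have : 1 < Fintype.card V := by rw [hVcard]; omega
    exact Fintype.exists_pair_of_one_lt_card this
  have hmpos : 0 < m := by
    obtain ⟨S, hSE, -, -, hS⟩ := hE x0 y0 hxy0
    have h1 := hS (fun v => if v = x0 then 1 else 0)
    simp only [if_true, if_neg hxy0.symm, sub_zero, abs_one] at h1
    have h2 : S.Nonempty := by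
      by_contra h
      rw [Finset.not_nonempty_iff_eq_empty] at h
      subst h
      simp at h1
      linarith
    have h3 : E.Nonempty := h2.mono hSE
    have h4 : 0 < E.card := Finset.card_pos.2 h3
    exact Nat.cast_pos.2 h4
  let J := {e : V × V // e.1 ≠ e.2}
  have : Nonempty J := ⟨⟨(x0, y0), hxy0⟩⟩
  have hJcard : (Fintype.card J : ℝ) ≤ (n : ℝ) ^ 2 := by
    have h1 : Fintype.card J ≤ Fintype.card (V × V) := Fintype.card_subtype_le _
    rw [Fintype.card_prod, hVcard] at h1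
    rw [sq]; exact_mod_cast h1
  let ρ : Ω → NNReal := fun t => (Lam t / m).toNNReal
  have hρm : Measurable ρ := (hLamm.div_const m).real_toNNReal
  have hρ : ∀ t, (ρ t : ℝ) = Lam t / m := fun t =>
    Real.coe_toNNReal _ (div_nonneg (hLam0 t) hmpos.le)
  let ν : Measure Ω := μ.withDensity (fun t => ρ t)
  have hν : IsProbabilityMeasure ν := by
    constructor
    rw [withDensity_apply _ MeasurableSet.univ, Measure.restrict_univ]
    have h1 : ∫⁻ t, (ρ t : ℝ≥0∞) ∂μ = ENNReal.ofReal (∫ t, Lam t / m ∂μ) := by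
      rw [ofReal_integral_eq_lintegral_ofReal (hLami.div_const m)
        (Filter.Eventually.of_forall (fun t => div_nonneg (hLam0 t) hmpos.le))]
      rfl
    rw [h1, integral_div, hLamint, div_self hmpos.ne', ENNReal.ofReal_one]
  let Z : J → Ω → ℝ := fun j t =>
    m * |rep j.1.1 t - rep j.1.2 t| ^ q / (ℓ j.1.1 j.1.2 ^ q * Lam t)
  let a : ℝ := (D - 1) / (2 * (D + 1))
  have ha0 : 0 < a := by
    apply div_pos <;> linarith
  have ha1 : a < 1 / 2 := by
    rw [div_lt_div_iff₀ (by linarith) (by norm_num)]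
    linarith
  let R : ℝ := 4 * n * ((2 * r - 1 : ℕ) : ℝ) ^ (q - 1)
  have hKpos : (0 : ℝ) < ((2 * r - 1 : ℕ) : ℝ) := by
    have : 0 < 2 * r - 1 := by omega
    exact_mod_cast this
  have hR : 0 < R := by
    have : (0 : ℝ) < n := by
      have : 0 < n := by omega
      exact_mod_cast this
    positivity
  have hZm : ∀ j, Measurable (Z j) := by
    intro j
    have h1 : Measurable (fun t => |rep j.1.1 t - rep j.1.2 t|) :=
      ((hrep _).sub (hrep _)).norm
    exact ((h1.pow_const q).const_mul m).div (hLamm.const_mul _)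
  have hZ0 : ∀ j t, 0 ≤ Z j t := by
    intro j t
    have h1 : 0 ≤ ℓ j.1.1 j.1.2 ^ q * Lam t :=
      mul_nonneg (Real.rpow_nonneg (norm_nonneg _) q) (hLam0 t)
    exact div_nonneg (by positivity) h1
  have hZR : ∀ j t, Z j t ≤ R := by
    intro j t
    have h1 : 0 ≤ ℓ j.1.1 j.1.2 ^ q * Lam t :=
      mul_nonneg (Real.rpow_nonneg (norm_nonneg _) q) (hLam0 t)
    rcases h1.eq_or_lt with h1 | h1
    · simp only [Z]
      rw [← h1, div_zero]
      exact hR.le
    · simp only [Z]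
      rw [div_le_iff₀ h1]
      have h2 := hdom j.1.1 j.1.2 j.2 t
      have h3 : m ≤ 4 * n := by
        have : (E.card : ℝ) ≤ ((4 * n : ℕ) : ℝ) := by exact_mod_cast hEcard
        simpa [m] using this
      calc m * |rep j.1.1 t - rep j.1.2 t| ^ q
          ≤ m * (((2 * r - 1 : ℕ) : ℝ) ^ (q - 1) * (ℓ j.1.1 j.1.2 ^ q * Lam t)) :=
            mul_le_mul_of_nonneg_left h2 hmpos.le
        _ ≤ (4 * n) * (((2 * r - 1 : ℕ) : ℝ) ^ (q - 1) * (ℓ j.1.1 j.1.2 ^ q * Lam t)) := by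
            apply mul_le_mul_of_nonneg_right h3
            positivity
        _ = R * (ℓ j.1.1 j.1.2 ^ q * Lam t) := by simp only [R]; ring
  have hZ1 : ∀ j, ∫ t, Z j t ∂ν = 1 := by
    intro j
    rw [integral_withDensity_eq_integral_smul hρm]
    have hpos : 0 < ℓ j.1.1 j.1.2 ^ q := Real.rpow_pos_of_pos (hℓpos _ _ j.2) q
    have h1 : ∀ t, ρ t • Z j t = |rep j.1.1 t - rep j.1.2 t| ^ q / ℓ j.1.1 j.1.2 ^ q := by
      intro t
      rw [NNReal.smul_def, hρ, smul_eq_mul]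
      rcases (hLam0 t).eq_or_lt with h | h
      · have h2 := hdom j.1.1 j.1.2 j.2 t
        rw [← h, mul_zero, mul_zero] at h2
        have h3 : |rep j.1.1 t - rep j.1.2 t| ^ q = 0 := le_antisymm h2 (by positivity)
        simp only [Z]
        rw [h3, ← h]
        simp
      · simp only [Z]
        field_simp
    simp_rw [h1]
    rw [integral_div, (hI _ _).2, div_self hpos.ne']
  obtain ⟨t, ht⟩ := exists_sample ν Z R hR hZm hZ0 hZR hZ1 a ha0 (by linarith) N (by
    refine le_trans ?_ hN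
    apply div_le_div_of_nonneg_right _ (by positivity)
    apply mul_le_mul_of_nonneg_left _ hR.le
    apply Real.log_le_log
    · have : 0 < Fintype.card J := Fintype.card_pos
      positivity
    · linarith)
  have hNpos : (0 : ℝ) < N := by
    refine lt_of_lt_of_le ?_ hN
    have h2 : 0 < Real.log (2 * (n : ℝ) ^ 2) := by
      apply Real.log_pos
      have : (2 : ℝ) ≤ n := by exact_mod_cast hn
      nlinarith
    exact div_pos (mul_pos hR h2) (by positivity)
  let f : Lp ℝ p μ → PiLp p (fun _ : Fin N => ℝ) := fun x =>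
    WithLp.toLp p (fun k => (m / (N * Lam (t k))) ^ (1 / q) * x (t k))
  refine ⟨f, (1 - 2 * a) ^ (1 / q), Real.rpow_pos_of_pos (by linarith) _, ?_⟩
  intro x hx y hy
  by_cases hxy : x = y
  · subst hxy; simp
  have hp0 : 0 < p.toReal := hq0
  let j : J := ⟨(⟨x, hx⟩, ⟨y, hy⟩), fun h => hxy (congrArg Subtype.val h)⟩
  have hkey : ‖f x - f y‖ ^ q = ‖x - y‖ ^ q / N * ∑ k, Z j (t k) := by
    rw [PiLp.norm_eq_sum hp0, ← Real.rpow_mul (by positivity)]
    rw [one_div, inv_mul_cancel₀ hq0.ne', Real.rpow_one, Finset.mul_sum]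
    apply Finset.sum_congr rfl
    intro k _
    have h1 : (f x - f y).ofLp k = (m / (N * Lam (t k))) ^ (1 / q) * (x (t k) - y (t k)) := by
      simp only [f, PiLp.sub_apply]
      ring
    have h2 : 0 ≤ m / (N * Lam (t k)) := div_nonneg hmpos.le (mul_nonneg hNpos.le (hLam0 _))
    rw [h1, Real.norm_eq_abs, abs_mul, abs_of_nonneg (Real.rpow_nonneg h2 _),
      Real.mul_rpow (Real.rpow_nonneg h2 _) (abs_nonneg _), ← Real.rpow_mul h2, one_div,
      inv_mul_cancel₀ hq0.ne', Real.rpow_one]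
    have hpos : 0 < ‖x - y‖ ^ q := Real.rpow_pos_of_pos (norm_pos_iff.2 (sub_ne_zero.2 hxy)) q
    have h3 : Z j (t k) = m * |x (t k) - y (t k)| ^ q / (‖x - y‖ ^ q * Lam (t k)) := rfl
    rw [h3]
    rcases (hLam0 (t k)).eq_or_lt with h | h
    · rw [← h]; simp
    · rw [← hqdef]; field_simp
  have hnn : 0 ≤ ‖x - y‖ := norm_nonneg _
  have hfn : 0 ≤ ‖f x - f y‖ := norm_nonneg _
  obtain ⟨hlo, hhi⟩ := ht j
  have hroot : ∀ c : ℝ, 0 ≤ c → (c ^ (1 / q) * ‖x - y‖) ^ q = c * ‖x - y‖ ^ q := by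
    intro c hc
    rw [Real.mul_rpow (by positivity) hnn, ← Real.rpow_mul hc, one_div,
      inv_mul_cancel₀ hq0.ne', Real.rpow_one]
  have hroot0 : ∀ c : ℝ, 0 ≤ c → 0 ≤ c ^ (1 / q) * ‖x - y‖ := fun c hc =>
    mul_nonneg (Real.rpow_nonneg hc _) hnn
  constructor
  · have h1 : ((1 - 2 * a) ^ (1 / q) * ‖x - y‖) ^ q ≤ ‖f x - f y‖ ^ q := by
      rw [hroot _ (by linarith), hkey]
      calc (1 - 2 * a) * ‖x - y‖ ^ q = ‖x - y‖ ^ q / N * ((1 - 2 * a) * N) := by
            field_simp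
        _ ≤ _ := mul_le_mul_of_nonneg_left hlo (by positivity)
    exact (Real.rpow_le_rpow_iff (hroot0 _ (by linarith)) hfn hq0).1 h1
  · have h1 : ‖f x - f y‖ ^ q ≤ ((1 + 2 * a) ^ (1 / q) * ‖x - y‖) ^ q := by
      rw [hroot _ (by linarith), hkey]
      calc ‖x - y‖ ^ q / N * ∑ k, Z j (t k) ≤ ‖x - y‖ ^ q / N * ((1 + 2 * a) * N) :=
            mul_le_mul_of_nonneg_left hhi (by positivity)
        _ = (1 + 2 * a) * ‖x - y‖ ^ q := by field_simp
    have h2 := (Real.rpow_le_rpow_iff hfn (hroot0 _ (by linarith)) hq0).1 h1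
    refine h2.trans ?_
    apply mul_le_mul_of_nonneg_right _ hnn
    have h3 : 1 + 2 * a ≤ D * (1 - 2 * a) := by
      simp only [a]
      have : 0 < D + 1 := by linarith
      have h5 : 2 * ((D - 1) / (2 * (D + 1))) = (D - 1) / (D + 1) := by
        field_simp
      rw [h5]
      have h6 : 1 + (D - 1) / (D + 1) = 2 * D / (D + 1) := by field_simp; ring
      have h7 : 1 - (D - 1) / (D + 1) = 2 / (D + 1) := by field_simp; ring
      rw [h6, h7]
      apply le_of_eq
      ring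
    calc (1 + 2 * a) ^ (1 / q) ≤ (D * (1 - 2 * a)) ^ (1 / q) :=
          Real.rpow_le_rpow (by linarith) h3 (by positivity)
      _ = D ^ (1 / q) * (1 - 2 * a) ^ (1 / q) := Real.mul_rpow (by linarith) (by linarith)
      _ ≤ D * (1 - 2 * a) ^ (1 / q) := by
          apply mul_le_mul_of_nonneg_right _ (Real.rpow_nonneg (by linarith) _)
          calc D ^ (1 / q) ≤ D ^ (1 : ℝ) :=
                Real.rpow_le_rpow_of_exponent_le hD.le (by rw [div_le_one hq0]; exact hq)
            _ = D := Real.rpow_one D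

end Vale.Agent.P249
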