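import Vale.Agent.P249.Defs
import Vale.Agent.P249.Gauss
import Vale.Agent.P249.Upper

open MeasureTheory ProbabilityTheory Filter
open scoped ENNReal NNReal Topology RealInnerProductSpace

namespace Vale.Agent.P249

universe u

/-- clamping to `[-1, 1]` -/
noncomputable def cl (s : ℝ) : ℝ := max (-1) (min 1 s)

/-- clamping and rounding to the grid of mesh `1 / N` -/
noncomputable def rd (N : ℕ) (s : ℝ) : ℝ := (⌊(N : ℝ) * cl s⌋ : ℝ) / N

theorem cl_mem (s : ℝ) : -1 ≤ cl s ∧ cl s ≤ 1 :=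
  ⟨le_max_left _ _, max_le (by norm_num) (min_le_left _ _)⟩

theorem cl_lip (s t : ℝ) : |cl s - cl t| ≤ |s - t| := by
  unfold cl
  have h1 := abs_max_sub_max_le_abs (min 1 s) (min 1 t) (-1)
  have h2 := abs_min_sub_min_le_max 1 s 1 t
  rw [max_comm (-1) (min 1 s), max_comm (-1) (min 1 t)]
  refine h1.trans (h2.trans ?_)
  simp

theorem measurable_cl : Measurable cl := by
  unfold cl; fun_prop

theorem measurable_rd (N : ℕ) : Measurable (rd N) := by
  unfold rd
  have h1 : Measurable (fun s : ℝ => ⌊(N : ℝ) * cl s⌋) :=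
    Int.measurable_floor.comp (measurable_cl.const_mul _)
  have h2 : Measurable (fun s : ℝ => ((⌊(N : ℝ) * cl s⌋ : ℤ) : ℝ)) :=
    (measurable_from_top (f := fun z : ℤ => (z : ℝ))).comp h1
  exact h2.div_const _

theorem rd_close (N : ℕ) (hN : 1 ≤ N) (s : ℝ) : |rd N s - cl s| ≤ 1 / N := by
  have hN0 : (0 : ℝ) < N := by exact_mod_cast hN
  unfold rd
  have h1 := Int.floor_le ((N : ℝ) * cl s)
  have h2 := Int.lt_floor_add_one ((N : ℝ) * cl s)
  have h3 : (⌊(N : ℝ) * cl s⌋ : ℝ) / N - cl s = (⌊(N : ℝ) * cl s⌋ - N * cl s) / N := by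
    field_simp
  rw [h3, abs_div, abs_of_pos hN0]
  apply div_le_div_of_nonneg_right _ hN0.le
  rw [abs_le]; constructor <;> linarith

theorem rd_mem (N : ℕ) (hN : 1 ≤ N) (s : ℝ) : ∃ z : Fin (2 * N + 1), rd N s = ((z : ℝ) - N) / N := by
  have hN0 : (0 : ℝ) < N := by exact_mod_cast hN
  obtain ⟨hc1, hc2⟩ := cl_mem s
  have h1 : -(N : ℤ) ≤ ⌊(N : ℝ) * cl s⌋ := by
    rw [Int.le_floor]; push_cast; nlinarith
  have h2 : ⌊(N : ℝ) * cl s⌋ ≤ N := by
    have : (⌊(N : ℝ) * cl s⌋ : ℝ) ≤ N := (Int.floor_le _).trans (by nlinarith)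
    exact_mod_cast this
  refine ⟨⟨(⌊(N : ℝ) * cl s⌋ + N).toNat, by omega⟩, ?_⟩
  unfold rd
  congr 1
  have h3 : (((⌊(N : ℝ) * cl s⌋ + N).toNat : ℤ) : ℝ) = ((⌊(N : ℝ) * cl s⌋ + N : ℤ) : ℝ) := by
    rw [Int.toNat_of_nonneg (by omega)]
  have h4 : (((⌊(N : ℝ) * cl s⌋ + N).toNat : ℕ) : ℝ) = (((⌊(N : ℝ) * cl s⌋ + N).toNat : ℤ) : ℝ) := by
    norm_cast
  simp only
  rw [h4, h3]
  push_cast
  ring

theorem rd_one (N : ℕ) (hN : 1 ≤ N) (s : ℝ) (hs : 1 ≤ s) : rd N s = 1 := by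
  have hN0 : (0 : ℝ) < N := by exact_mod_cast hN
  have h1 : cl s = 1 := by unfold cl; rw [min_eq_left hs]; norm_num
  unfold rd
  rw [h1, mul_one, Int.floor_natCast]
  exact div_self hN0.ne'

theorem rd_neg_one (N : ℕ) (hN : 1 ≤ N) (s : ℝ) (hs : s ≤ -1) : rd N s = -1 := by
  have hN0 : (0 : ℝ) < N := by exact_mod_cast hN
  have h1 : cl s = -1 := by
    unfold cl; rw [min_eq_right (by linarith), max_eq_left hs]
  unfold rd
  have h2 : (N : ℝ) * cl s = ((-(N : ℤ) : ℤ) : ℝ) := by rw [h1]; push_cast; ring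
  rw [h2, Int.floor_intCast]
  push_cast
  field_simp

theorem rd_abs_le (N : ℕ) (hN : 1 ≤ N) (s : ℝ) : |rd N s| ≤ 1 := by
  have hN0 : (0 : ℝ) < N := by exact_mod_cast hN
  obtain ⟨z, hz⟩ := rd_mem N hN s
  rw [hz, abs_div, abs_of_pos hN0, div_le_one hN0, abs_le]
  have h1 : (z : ℝ) ≤ 2 * N := by
    have : (z : ℕ) ≤ 2 * N := by omega
    exact_mod_cast this
  have h2 : (0 : ℝ) ≤ (z : ℝ) := Nat.cast_nonneg _
  constructor <;> linarith

noncomputable def clE (k : ℕ) (x : Eu k) : Eu k := WithLp.toLp 2 (fun i => cl (x i))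
noncomputable def rdE (k N : ℕ) (x : Eu k) : Eu k := WithLp.toLp 2 (fun i => rd N (x i))

theorem clE_lip (k : ℕ) (x y : Eu k) : ‖clE k x - clE k y‖ ≤ ‖x - y‖ := by
  rw [EuclideanSpace.norm_eq, EuclideanSpace.norm_eq]
  apply Real.sqrt_le_sqrt
  apply Finset.sum_le_sum
  intro i _
  simp only [clE, PiLp.sub_apply, Real.norm_eq_abs]
  exact pow_le_pow_left₀ (abs_nonneg _) (cl_lip _ _) 2

theorem rdE_close (k N : ℕ) (hN : 1 ≤ N) (hk : k ≤ N ^ 2) (x : Eu k) :
    ‖rdE k N x - clE k x‖ ≤ 1 := by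
  have hN0 : (0 : ℝ) < N := by exact_mod_cast hN
  rw [EuclideanSpace.norm_eq, Real.sqrt_le_iff]
  refine ⟨zero_le_one, ?_⟩
  rw [one_pow]
  calc ∑ i, ‖(rdE k N x - clE k x) i‖ ^ 2 ≤ ∑ _i : Fin k, (1 / (N : ℝ)) ^ 2 := by
        apply Finset.sum_le_sum
        intro i _
        simp only [rdE, clE, PiLp.sub_apply, Real.norm_eq_abs]
        exact pow_le_pow_left₀ (abs_nonneg _) (rd_close N hN _) 2
    _ = k / (N : ℝ) ^ 2 := by
        rw [Finset.sum_const, Finset.card_univ, Fintype.card_fin, nsmul_eq_mul]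
        ring
    _ ≤ 1 := by
        rw [div_le_one (by positivity)]
        exact_mod_cast hk

theorem measurable_rdE (k N : ℕ) : Measurable (rdE k N) := by
  unfold rdE
  apply (WithLp.measurable_toLp 2 (Fin k → ℝ)).comp
  apply measurable_pi_lambda
  intro i
  exact (measurable_rd N).comp (by fun_prop)

theorem rdE_norm_le (k N : ℕ) (hN : 1 ≤ N) (x : Eu k) : ‖rdE k N x‖ ≤ Real.sqrt k := by
  rw [EuclideanSpace.norm_eq]
  apply Real.sqrt_le_sqrt
  calc ∑ i, ‖(rdE k N x) i‖ ^ 2 ≤ ∑ _i : Fin k, (1 : ℝ) := by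
        apply Finset.sum_le_sum
        intro i _
        simp only [rdE, Real.norm_eq_abs]
        have := rd_abs_le N hN (x i)
        nlinarith [abs_nonneg (rd N (x i))]
    _ = k := by simp

theorem clE_norm_le (k : ℕ) (x : Eu k) : ‖clE k x‖ ≤ Real.sqrt k := by
  rw [EuclideanSpace.norm_eq]
  apply Real.sqrt_le_sqrt
  calc ∑ i, ‖(clE k x) i‖ ^ 2 ≤ ∑ _i : Fin k, (1 : ℝ) := by
        apply Finset.sum_le_sum
        intro i _
        simp only [clE, Real.norm_eq_abs]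
        have h1 : |cl (x i)| ≤ 1 := abs_le.2 (cl_mem _)
        nlinarith [abs_nonneg (cl (x i))]
    _ = k := by simp

/-- The grid. -/
noncomputable def gridS (k N : ℕ) : Finset (Eu k) :=
  (Finset.univ : Finset (Fin k → Fin (2 * N + 1))).image
    (fun z => WithLp.toLp 2 (fun i => ((z i : ℝ) - N) / N))

theorem card_gridS (k N : ℕ) : (gridS k N).card ≤ (2 * N + 1) ^ k := by
  unfold gridS
  refine Finset.card_image_le.trans ?_
  simp

theorem rdE_mem (k N : ℕ) (hN : 1 ≤ N) (x : Eu k) : rdE k N x ∈ gridS k N := by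
  unfold gridS rdE
  choose z hz using fun i => rd_mem N hN (x i)
  rw [Finset.mem_image]
  refine ⟨z, Finset.mem_univ _, ?_⟩
  congr 1
  ext i
  rw [hz i]

/-! ### Gaussian constants -/

theorem gauss_pos_of_volume_pos (s : Set ℝ) (hs : volume s ≠ 0) :
    0 < (gaussianReal 0 1).real s := by
  rw [measureReal_def]
  apply ENNReal.toReal_pos
  · intro h
    exact hs (gaussianReal_absolutelyContinuous' 0 one_ne_zero h)
  · exact measure_ne_top _ _

/-- Gaussian tail constant. -/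
noncomputable def gk : ℝ := (gaussianReal 0 1).real (Set.Ici 1) * (gaussianReal 0 1).real (Set.Iic (-1))

theorem gk_pos : 0 < gk :=
  mul_pos (gauss_pos_of_volume_pos _ (by simp)) (gauss_pos_of_volume_pos _ (by simp))

theorem gmom_integrable (q : ℝ) (hq : 0 < q) : Integrable (fun s : ℝ => |s| ^ q) (gaussianReal 0 1) := by
  have h := (memLp_id_gaussianReal' (μ := 0) (v := 1) (ENNReal.ofReal q)
    ENNReal.ofReal_ne_top).integrable_norm_rpow (by simpa using hq) ENNReal.ofReal_ne_top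
  rw [ENNReal.toReal_ofReal hq.le] at h
  exact h

theorem gmom_pos (q : ℝ) (hq : 0 < q) : 0 < gmom q := by
  have h1 : 0 < (gaussianReal 0 1).real (Set.Ici 1) := gauss_pos_of_volume_pos _ (by simp)
  have h2 : (gaussianReal 0 1).real (Set.Ici 1) ≤ gmom q := by
    rw [← integral_indicator_one measurableSet_Ici]
    apply integral_mono_of_nonneg
    · exact Eventually.of_forall (fun s => Set.indicator_nonneg (fun _ _ => zero_le_one) _)
    · exact gmom_integrable q hq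
    · refine Eventually.of_forall (fun s => ?_)
      simp only [Set.indicator, Pi.one_apply]
      split_ifs with h
      · have h3 : (1 : ℝ) ≤ |s| := le_trans h (le_abs_self s)
        exact Real.one_le_rpow h3 hq.le
      · positivity
  linarith

end Vale.Agent.P249
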