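import Vale.Agent.P249.Lower

open MeasureTheory ProbabilityTheory Filter
open scoped ENNReal NNReal Topology RealInnerProductSpace

namespace Vale.Agent.P249

universe u

/-! ### Isometric copy of Euclidean space in `L_p` -/

theorem exists_isometry (p : ℝ≥0∞) [hp1 : Fact (1 ≤ p)] (hp : p ≠ ∞) (k : ℕ) :
    ∃ (μ : Measure (ULift.{u} (Eu k))) (Φ : Eu k → Lp ℝ p μ), ∀ x y, ‖Φ x - Φ y‖ = ‖x - y‖ := by
  have hp0 : p ≠ 0 := (lt_of_lt_of_le zero_lt_one hp1.out).ne'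
  have hq : 1 ≤ p.toReal := one_le_toReal hp1.out hp
  set q := p.toReal with hqdef
  have hq0 : 0 < q := by linarith
  set γ := stdGaussian (Eu k) with hγ
  let μ : Measure (ULift.{u} (Eu k)) := γ.map (MeasurableEquiv.ulift.symm : Eu k ≃ᵐ ULift.{u} (Eu k))
  have hmp : MeasurePreserving (MeasurableEquiv.ulift : ULift.{u} (Eu k) ≃ᵐ Eu k) μ γ := by
    have h1 : MeasurePreserving (MeasurableEquiv.ulift.symm : Eu k ≃ᵐ ULift.{u} (Eu k)) γ μ :=
      ⟨MeasurableEquiv.measurable _, rfl⟩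
    exact h1.symm
  have hg := gmom_pos q hq0
  let c : ℝ := (gmom q) ^ (-(1 / q))
  have hc0 : 0 < c := Real.rpow_pos_of_pos hg _
  have hcq : c ^ q * gmom q = 1 := by
    simp only [c]
    rw [← Real.rpow_mul hg.le]
    have : -(1 / q) * q = -1 := by field_simp
    rw [this, Real.rpow_neg_one]
    exact inv_mul_cancel₀ hg.ne'
  let φ : Eu k → Eu k → ℝ := fun v z => c * ⟪v, z⟫
  have hφmem : ∀ v, MemLp (φ v) p γ := by
    intro v
    apply MemLp.const_mul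
    exact IsGaussian.memLp_dual γ (innerSL ℝ v) p hp
  have hφnorm : ∀ v, eLpNorm (φ v) p γ = ENNReal.ofReal ‖v‖ := by
    intro v
    rw [(hφmem v).eLpNorm_eq_integral_rpow_norm hp0 hp]
    congr 1
    have h1 : ∀ z, ‖φ v z‖ ^ p.toReal = c ^ q * |(innerSL ℝ v) z| ^ q := by
      intro z
      simp only [φ]
      rw [Real.norm_eq_abs, abs_mul, abs_of_pos hc0, Real.mul_rpow hc0.le (abs_nonneg _)]
      rfl
    simp_rw [h1]
    rw [integral_const_mul, integral_abs_dual_rpow k q, innerSL_apply_norm]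
    have h2 : c ^ q * (‖v‖ ^ q * gmom q) = ‖v‖ ^ q := by
      calc c ^ q * (‖v‖ ^ q * gmom q) = (c ^ q * gmom q) * ‖v‖ ^ q := by ring
        _ = _ := by rw [hcq, one_mul]
    rw [h2, ← hqdef, ← Real.rpow_mul (norm_nonneg v), mul_inv_cancel₀ hq0.ne', Real.rpow_one]
  have hmem : ∀ v, MemLp ((φ v) ∘ (MeasurableEquiv.ulift : ULift.{u} (Eu k) ≃ᵐ Eu k)) p μ :=
    fun v => (hφmem v).comp_measurePreserving hmp
  refine ⟨μ, fun v => (hmem v).toLp _, ?_⟩
  intro x y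
  rw [← MemLp.toLp_sub, Lp.norm_toLp]
  have h1 : (φ x) ∘ (MeasurableEquiv.ulift : ULift.{u} (Eu k) ≃ᵐ Eu k) -
      (φ y) ∘ (MeasurableEquiv.ulift : ULift.{u} (Eu k) ≃ᵐ Eu k) =
      (φ (x - y)) ∘ (MeasurableEquiv.ulift : ULift.{u} (Eu k) ≃ᵐ Eu k) := by
    ext ω
    simp only [φ, Pi.sub_apply, Function.comp_apply, inner_sub_left]
    ring
  rw [h1, eLpNorm_comp_measurePreserving (hφmem (x - y)).aestronglyMeasurable hmp,
    hφnorm, ENNReal.toReal_ofReal (norm_nonneg _)]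

end Vale.Agent.P249
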