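import Vale.Agent.P249.Lower2

open MeasureTheory ProbabilityTheory Filter
open scoped ENNReal NNReal Topology RealInnerProductSpace

namespace Vale.Agent.P249

universe u

theorem add_rpow_le_mul (a b q : ℝ) (ha : 0 ≤ a) (hb : 0 ≤ b) (hq : 1 ≤ q) :
    (a + b) ^ q ≤ 2 ^ (q - 1) * (a ^ q + b ^ q) := by
  lift a to ℝ≥0 using ha
  lift b to ℝ≥0 using hb
  exact_mod_cast NNReal.rpow_add_le_mul_rpow_add_rpow a b hq

theorem coord_abs_le {p : ℝ≥0∞} [Fact (1 ≤ p)] {d : ℕ} (a b : PiLp p (fun _ : Fin d => ℝ))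
    (j : Fin d) : |a j - b j| ≤ ‖a - b‖ := by
  have h := PiLp.norm_apply_le (a - b) j
  rwa [PiLp.sub_apply, Real.norm_eq_abs] at h

theorem stdGaussian_coord (k : ℕ) (i : Fin k) (s : Set ℝ) (hs : MeasurableSet s) :
    (stdGaussian (Eu k)).real {x | x i ∈ s} = (gaussianReal 0 1).real s := by
  have h1 : (stdGaussian (Eu k)).map (EuclideanSpace.proj i : Eu k →L[ℝ] ℝ) = gaussianReal 0 1 := by
    rw [← map_pi_eq_stdGaussian, Measure.map_map (by fun_prop) (by fun_prop)]
    have h2 : (⇑(EuclideanSpace.proj i : Eu k →L[ℝ] ℝ) ∘ (WithLp.toLp 2 : (Fin k → ℝ) → Eu k)) =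
        Function.eval i := by
      ext x; simp
    rw [h2]
    exact (measurePreserving_eval (fun _ : Fin k => gaussianReal 0 1) i).map_eq
  rw [← h1, measureReal_def, measureReal_def, Measure.map_apply (by fun_prop) hs]
  rfl

/-- Lower bound on the mean square distance. -/
theorem mean_sq_ge (k N : ℕ) (hN : 1 ≤ N) :
    4 * gk * k ≤ ∫ z, ‖rdE k N z.1 - rdE k N z.2‖ ^ 2
      ∂((stdGaussian (Eu k)).prod (stdGaussian (Eu k))) := by
  set γ := stdGaussian (Eu k) with hγ
  set G := γ.prod γ with hG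
  have hmeas : ∀ i : Fin k, Measurable (fun z : Eu k × Eu k => (rd N (z.1 i) - rd N (z.2 i)) ^ 2) := by
    intro i
    have h1 : Measurable (fun z : Eu k × Eu k => rd N (z.1 i)) :=
      (measurable_rd N).comp (by fun_prop)
    have h2 : Measurable (fun z : Eu k × Eu k => rd N (z.2 i)) :=
      (measurable_rd N).comp (by fun_prop)
    exact (h1.sub h2).pow_const 2
  have hint : ∀ i : Fin k, Integrable (fun z : Eu k × Eu k => (rd N (z.1 i) - rd N (z.2 i)) ^ 2) G := by
    intro i
    apply Integrable.of_bound (hmeas i).aestronglyMeasurable 4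
    refine Eventually.of_forall (fun z => ?_)
    rw [Real.norm_of_nonneg (sq_nonneg _)]
    have h1 := abs_le.1 (rd_abs_le N hN (z.1 i))
    have h2 := abs_le.1 (rd_abs_le N hN (z.2 i))
    nlinarith
  have hone : ∀ i : Fin k, 4 * gk ≤ ∫ z, (rd N (z.1 i) - rd N (z.2 i)) ^ 2 ∂G := by
    intro i
    let A : Set (Eu k) := {x | x i ∈ Set.Ici (1 : ℝ)}
    let B : Set (Eu k) := {x | x i ∈ Set.Iic (-1 : ℝ)}
    have hA : MeasurableSet A := (show Measurable (fun x : Eu k => x i) by fun_prop) measurableSet_Ici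
    have hB : MeasurableSet B := (show Measurable (fun x : Eu k => x i) by fun_prop) measurableSet_Iic
    have h1 : ∫ z, (A ×ˢ B).indicator (fun _ => (4 : ℝ)) z ∂G = 4 * gk := by
      rw [integral_indicator_const _ (hA.prod hB), hG, measureReal_prod_prod, smul_eq_mul,
        stdGaussian_coord k i _ measurableSet_Ici, stdGaussian_coord k i _ measurableSet_Iic]
      unfold gk; ring
    rw [← h1]
    apply integral_mono_of_nonneg
    · exact Eventually.of_forall (fun z => Set.indicator_nonneg (fun _ _ => by norm_num) _)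
    · exact hint i
    · refine Eventually.of_forall (fun z => ?_)
      by_cases hz : z ∈ A ×ˢ B
      · rw [Set.indicator_of_mem hz]
        have h2 := rd_one N hN (z.1 i) hz.1
        have h3 := rd_neg_one N hN (z.2 i) hz.2
        simp only [h2, h3]
        norm_num
      · rw [Set.indicator_of_notMem hz]
        positivity
  have hsum : ∀ z : Eu k × Eu k, ‖rdE k N z.1 - rdE k N z.2‖ ^ 2 =
      ∑ i, (rd N (z.1 i) - rd N (z.2 i)) ^ 2 := by
    intro z
    rw [EuclideanSpace.norm_sq_eq]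
    apply Finset.sum_congr rfl
    intro i _
    simp only [rdE, PiLp.sub_apply, Real.norm_eq_abs, sq_abs]
  simp_rw [hsum]
  rw [integral_finsetSum _ (fun i _ => hint i)]
  calc 4 * gk * k = ∑ _i : Fin k, 4 * gk := by
        rw [Finset.sum_const, Finset.card_univ, Fintype.card_fin, nsmul_eq_mul]; ring
    _ ≤ _ := Finset.sum_le_sum (fun i _ => hone i)

/-- Main estimate behind the lower bound. -/
theorem lower_main (p : ℝ≥0∞) [hp1 : Fact (1 ≤ p)] (hp : p ≠ ∞) (hq2 : 2 ≤ p.toReal)
    (k N : ℕ) (hN : 1 ≤ N) (hk : k ≤ N ^ 2) (hk1 : 1 ≤ k) (n : ℕ) (hn : (2 * N + 1) ^ k ≤ n)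
    (D : ℝ) (hD : 1 ≤ D) (d : ℕ) (h : EmbedsAll.{u} p n D d) :
    (4 * gk * k) ^ (p.toReal / 2) ≤
      d * (D ^ p.toReal * (2 ^ (p.toReal - 1) *
        ((Real.pi / 2) ^ p.toReal * gmom p.toReal + 2 ^ p.toReal))) := by
  classical
  set q := p.toReal with hqdef
  have hq0 : 0 < q := by linarith
  obtain ⟨μ, Φ, hΦ⟩ := exists_isometry.{u} p hp k
  have hΦinj : Function.Injective Φ := by
    intro x y hxy
    have := hΦ x y
    rw [hxy, sub_self, norm_zero] at this
    exact sub_eq_zero.1 (norm_eq_zero.1 this.symm)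
  have : Nonempty (Fin k) := ⟨⟨0, by omega⟩⟩
  have : Nontrivial (Eu k) := inferInstance
  have hinfE : Infinite (Eu k) := inferInstance
  have hinf : Infinite (Lp ℝ p μ) := Infinite.of_injective Φ hΦinj
  let S := gridS k N
  obtain ⟨X, hSX, hXn⟩ := Infinite.exists_superset_card_eq (S.image Φ) n
    ((Finset.card_image_le.trans (card_gridS k N)).trans hn)
  obtain ⟨f, s, hs, hf⟩ := h _ μ X hXn
  have hf' : ∀ z ∈ S, ∀ z' ∈ S, s * ‖z - z'‖ ≤ ‖f (Φ z) - f (Φ z')‖ ∧
      ‖f (Φ z) - f (Φ z')‖ ≤ D * s * ‖z - z'‖ := by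
    intro z hz z' hz'
    have := hf (Φ z) (hSX (Finset.mem_image_of_mem _ hz)) (Φ z') (hSX (Finset.mem_image_of_mem _ hz'))
    rwa [hΦ] at this
  let F : Fin d → Eu k → ℝ := fun j z => s⁻¹ * (f (Φ z)) j
  let K : ℝ≥0 := D.toNNReal
  have hK : (K : ℝ) = D := Real.coe_toNNReal _ (by linarith)
  have hFlip : ∀ j, LipschitzOnWith K (F j) S := by
    intro j
    apply LipschitzOnWith.of_dist_le_mul
    intro z hz z' hz'
    rw [Real.dist_eq, dist_eq_norm, hK]
    have h1 : F j z - F j z' = s⁻¹ * ((f (Φ z)) j - (f (Φ z')) j) := by simp only [F]; ring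
    rw [h1, abs_mul, abs_of_pos (inv_pos.2 hs)]
    have h2 := (coord_abs_le (f (Φ z)) (f (Φ z')) j).trans (hf' z hz z' hz').2
    calc s⁻¹ * |(f (Φ z)) j - (f (Φ z')) j| ≤ s⁻¹ * (D * s * ‖z - z'‖) :=
          mul_le_mul_of_nonneg_left h2 (inv_pos.2 hs).le
      _ = D * ‖z - z'‖ := by field_simp
  choose g hg hgF using fun j => (hFlip j).extend_real
  have hFsum : ∀ z ∈ S, ∀ z' ∈ S, ‖z - z'‖ ^ q ≤ ∑ j, |g j z - g j z'| ^ q := by
    intro z hz z' hz'
    have h1 := (hf' z hz z' hz').1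
    have h2 : ‖f (Φ z) - f (Φ z')‖ ^ q = ∑ j, |(f (Φ z)) j - (f (Φ z')) j| ^ q := by
      rw [PiLp.norm_eq_sum (by rw [← hqdef]; exact hq0), ← Real.rpow_mul (by positivity),
        ← hqdef, one_div, inv_mul_cancel₀ hq0.ne', Real.rpow_one]
      apply Finset.sum_congr rfl
      intro j _
      rw [PiLp.sub_apply, Real.norm_eq_abs]
    have h3 : ∀ j, |g j z - g j z'| ^ q = s⁻¹ ^ q * |(f (Φ z)) j - (f (Φ z')) j| ^ q := by
      intro j
      rw [← hgF j hz, ← hgF j hz']
      have h4 : F j z - F j z' = s⁻¹ * ((f (Φ z)) j - (f (Φ z')) j) := by simp only [F]; ring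
      rw [h4, abs_mul, abs_of_pos (inv_pos.2 hs), Real.mul_rpow (inv_pos.2 hs).le (abs_nonneg _)]
    simp_rw [h3]
    rw [← Finset.mul_sum, ← h2, ← Real.mul_rpow (inv_pos.2 hs).le (norm_nonneg _)]
    apply Real.rpow_le_rpow (norm_nonneg _) _ hq0.le
    rw [inv_mul_eq_div, le_div_iff₀ hs, mul_comm]
    exact h1
  set γ := stdGaussian (Eu k) with hγ
  set G := γ.prod γ with hG
  -- the Lipschitz functions after clamping
  have hclLip : LipschitzWith 1 (clE k) := by
    apply LipschitzWith.of_dist_le_mul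
    intro x y
    rw [dist_eq_norm, dist_eq_norm, NNReal.coe_one, one_mul]
    exact clE_lip k x y
  have hhLip : ∀ j, LipschitzWith K (g j ∘ clE k) := by
    intro j
    have := (hg j).comp hclLip
    rwa [mul_one] at this
  have hpt : ∀ j (x y : Eu k), |g j (rdE k N x) - g j (rdE k N y)| ≤
      |(g j ∘ clE k) x - (g j ∘ clE k) y| + 2 * D := by
    intro j x y
    have h1 : ∀ x, |g j (rdE k N x) - g j (clE k x)| ≤ D := by
      intro x
      have h2 := (hg j).dist_le_mul (rdE k N x) (clE k x)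
      rw [Real.dist_eq, dist_eq_norm, hK] at h2
      have h3 := rdE_close k N hN hk x
      nlinarith
    have h4 := h1 x
    have h5 := h1 y
    simp only [Function.comp]
    rw [abs_le] at h4 h5 ⊢
    have h6 := abs_le.1 (le_refl |g j (clE k x) - g j (clE k y)|)
    constructor <;> linarith
  have hptq : ∀ j (x y : Eu k), |g j (rdE k N x) - g j (rdE k N y)| ^ q ≤
      2 ^ (q - 1) * (|(g j ∘ clE k) x - (g j ∘ clE k) y| ^ q + (2 * D) ^ q) := by
    intro j x y
    calc |g j (rdE k N x) - g j (rdE k N y)| ^ q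
        ≤ (|(g j ∘ clE k) x - (g j ∘ clE k) y| + 2 * D) ^ q :=
          Real.rpow_le_rpow (abs_nonneg _) (hpt j x y) hq0.le
      _ ≤ _ := add_rpow_le_mul _ _ _ (abs_nonneg _) (by linarith) (by linarith)
  have hbd : ∀ j (x y : Eu k), |(g j ∘ clE k) x - (g j ∘ clE k) y| ≤ D * (2 * Real.sqrt k) := by
    intro j x y
    have h2 := (hg j).dist_le_mul (clE k x) (clE k y)
    rw [Real.dist_eq, dist_eq_norm, hK] at h2
    have h3 : ‖clE k x - clE k y‖ ≤ 2 * Real.sqrt k := by
      have := norm_sub_le (clE k x) (clE k y)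
      have h4 := clE_norm_le k x
      have h5 := clE_norm_le k y
      linarith
    exact h2.trans (mul_le_mul_of_nonneg_left h3 (by linarith))
  have hint1 : ∀ j, Integrable (fun z : Eu k × Eu k =>
      |(g j ∘ clE k) z.1 - (g j ∘ clE k) z.2| ^ q) G := by
    intro j
    have hc : Continuous (g j ∘ clE k) := (hhLip j).continuous
    apply Integrable.of_bound
      (C := (D * (2 * Real.sqrt k)) ^ q)
    · apply Continuous.aestronglyMeasurable
      apply Continuous.rpow_const _ (fun _ => Or.inr hq0.le)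
      exact ((hc.comp continuous_fst).sub (hc.comp continuous_snd)).abs
    · refine Eventually.of_forall (fun z => ?_)
      rw [Real.norm_of_nonneg (by positivity)]
      exact Real.rpow_le_rpow (abs_nonneg _) (hbd j z.1 z.2) hq0.le
  have hint2 : ∀ j, Integrable (fun z : Eu k × Eu k =>
      |g j (rdE k N z.1) - g j (rdE k N z.2)| ^ q) G := by
    intro j
    have hm : Measurable (fun z : Eu k × Eu k => |g j (rdE k N z.1) - g j (rdE k N z.2)| ^ q) := by
      have h1 : Measurable (fun x => g j (rdE k N x)) :=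
        (hg j).continuous.measurable.comp (measurable_rdE k N)
      have h2 : Measurable (fun z : Eu k × Eu k => g j (rdE k N z.1) - g j (rdE k N z.2)) :=
        (h1.comp measurable_fst).sub (h1.comp measurable_snd)
      exact (h2.norm).pow_const q
    apply Integrable.mono' (((hint1 j).add (integrable_const ((2 * D) ^ q))).const_mul (2 ^ (q - 1)))
      hm.aestronglyMeasurable
    refine Eventually.of_forall (fun z => ?_)
    rw [Real.norm_of_nonneg (by positivity)]
    exact hptq j z.1 z.2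
  have hupper : ∀ j, ∫ z, |g j (rdE k N z.1) - g j (rdE k N z.2)| ^ q ∂G ≤
      D ^ q * (2 ^ (q - 1) * ((Real.pi / 2) ^ q * gmom q + 2 ^ q)) := by
    intro j
    have hMP := maurey_pisier k q (by linarith) (g j ∘ clE k) K (hhLip j)
    rw [hK] at hMP
    calc ∫ z, |g j (rdE k N z.1) - g j (rdE k N z.2)| ^ q ∂G
        ≤ ∫ z, 2 ^ (q - 1) * (|(g j ∘ clE k) z.1 - (g j ∘ clE k) z.2| ^ q + (2 * D) ^ q) ∂G := by
          apply integral_mono (hint2 j)
            (((hint1 j).add (integrable_const ((2 * D) ^ q))).const_mul (2 ^ (q - 1)))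
          intro z
          exact hptq j z.1 z.2
      _ = 2 ^ (q - 1) * (∫ z, |(g j ∘ clE k) z.1 - (g j ∘ clE k) z.2| ^ q ∂G + (2 * D) ^ q) := by
          rw [integral_const_mul, integral_add (hint1 j) (integrable_const _)]
          simp
      _ ≤ 2 ^ (q - 1) * ((Real.pi / 2) ^ q * D ^ q * gmom q + (2 * D) ^ q) := by
          gcongr
      _ = _ := by
          rw [Real.mul_rpow (by norm_num) (by linarith)]
          ring
  -- lower bound by Jensen
  have hdistm : Measurable (fun z : Eu k × Eu k => ‖rdE k N z.1 - rdE k N z.2‖) :=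
    (((measurable_rdE k N).comp measurable_fst).sub ((measurable_rdE k N).comp measurable_snd)).norm
  have hdistb : ∀ z : Eu k × Eu k, ‖rdE k N z.1 - rdE k N z.2‖ ≤ 2 * Real.sqrt k := by
    intro z
    have := norm_sub_le (rdE k N z.1) (rdE k N z.2)
    have h4 := rdE_norm_le k N hN z.1
    have h5 := rdE_norm_le k N hN z.2
    linarith
  have hint3 : Integrable (fun z : Eu k × Eu k => ‖rdE k N z.1 - rdE k N z.2‖ ^ q) G := by
    apply Integrable.of_bound (C := (2 * Real.sqrt k) ^ q) (hdistm.pow_const q).aestronglyMeasurable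
    refine Eventually.of_forall (fun z => ?_)
    rw [Real.norm_of_nonneg (by positivity)]
    exact Real.rpow_le_rpow (norm_nonneg _) (hdistb z) hq0.le
  have hint4 : Integrable (fun z : Eu k × Eu k => ‖rdE k N z.1 - rdE k N z.2‖ ^ 2) G := by
    apply Integrable.of_bound (C := (2 * Real.sqrt k) ^ 2) (hdistm.pow_const 2).aestronglyMeasurable
    refine Eventually.of_forall (fun z => ?_)
    rw [Real.norm_of_nonneg (by positivity)]
    exact pow_le_pow_left₀ (norm_nonneg _) (hdistb z) 2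
  have hsq : ∀ z : Eu k × Eu k, (‖rdE k N z.1 - rdE k N z.2‖ ^ 2) ^ (q / 2) =
      ‖rdE k N z.1 - rdE k N z.2‖ ^ q := by
    intro z
    rw [← Real.rpow_natCast, ← Real.rpow_mul (norm_nonneg _)]
    congr 1
    push_cast; ring
  have hjensen : (∫ z, ‖rdE k N z.1 - rdE k N z.2‖ ^ 2 ∂G) ^ (q / 2) ≤
      ∫ z, ‖rdE k N z.1 - rdE k N z.2‖ ^ q ∂G := by
    have h1 := (convexOn_rpow (p := q / 2) (by linarith)).map_integral_le (μ := G)
      (f := fun z : Eu k × Eu k => ‖rdE k N z.1 - rdE k N z.2‖ ^ 2)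
      (Real.continuous_rpow_const (by linarith)).continuousOn isClosed_Ici
      (Eventually.of_forall (fun z => by
        simp only [Set.mem_Ici]; positivity)) hint4 (by
        refine hint3.congr (Eventually.of_forall (fun z => ?_))
        simp only [Function.comp]
        exact (hsq z).symm)
    refine h1.trans (le_of_eq ?_)
    apply integral_congr_ae
    exact Eventually.of_forall (fun z => hsq z)
  have hmean := mean_sq_ge k N hN
  have hgk := gk_pos
  calc (4 * gk * k) ^ (q / 2) ≤ (∫ z, ‖rdE k N z.1 - rdE k N z.2‖ ^ 2 ∂G) ^ (q / 2) :=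
        Real.rpow_le_rpow (by positivity) hmean (by linarith)
    _ ≤ ∫ z, ‖rdE k N z.1 - rdE k N z.2‖ ^ q ∂G := hjensen
    _ ≤ ∫ z, ∑ j, |g j (rdE k N z.1) - g j (rdE k N z.2)| ^ q ∂G := by
        apply integral_mono hint3 (integrable_finsetSum _ (fun j _ => hint2 j))
        intro z
        exact hFsum _ (rdE_mem k N hN z.1) _ (rdE_mem k N hN z.2)
    _ = ∑ j, ∫ z, |g j (rdE k N z.1) - g j (rdE k N z.2)| ^ q ∂G :=
        integral_finsetSum _ (fun j _ => hint2 j)
    _ ≤ ∑ _j : Fin d, D ^ q * (2 ^ (q - 1) * ((Real.pi / 2) ^ q * gmom q + 2 ^ q)) :=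
        Finset.sum_le_sum (fun j _ => hupper j)
    _ = _ := by rw [Finset.sum_const, Finset.card_univ, Fintype.card_fin, nsmul_eq_mul]

end Vale.Agent.P249
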