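import Vale.Agent.P249.Lower3

open MeasureTheory ProbabilityTheory Filter
open scoped ENNReal NNReal Topology

namespace Vale.Agent.P249

universe u

theorem one_le_dim (p : ℝ≥0∞) [hp1 : Fact (1 ≤ p)] (hp : p ≠ ∞) (n : ℕ) (hn : 2 ≤ n) (D : ℝ)
    (d : ℕ) (h : EmbedsAll.{u} p n D d) : 1 ≤ d := by
  classical
  by_contra hd
  have hd0 : d = 0 := by omega
  subst hd0
  obtain ⟨μ, Φ, hΦ⟩ := exists_isometry.{u} p hp 1
  have hΦinj : Function.Injective Φ := by
    intro x y hxy
    have := hΦ x y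
    rw [hxy, sub_self, norm_zero] at this
    exact sub_eq_zero.1 (norm_eq_zero.1 this.symm)
  have : Nontrivial (Eu 1) := inferInstance
  have hinfE : Infinite (Eu 1) := inferInstance
  have hinf : Infinite (Lp ℝ p μ) := Infinite.of_injective Φ hΦinj
  obtain ⟨X, hX⟩ := Infinite.exists_subset_card_eq (Lp ℝ p μ) n
  obtain ⟨f, s, hs, hf⟩ := h _ μ X hX
  obtain ⟨x, hx, y, hy, hxy⟩ := Finset.one_lt_card.1 (by omega : 1 < X.card)
  have h1 := (hf x hx y hy).1
  have h2 : f x - f y = 0 := Subsingleton.elim _ _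
  rw [h2, norm_zero] at h1
  have h3 : 0 < ‖x - y‖ := norm_pos_iff.2 (sub_ne_zero.2 hxy)
  nlinarith

theorem lower_bound (p : ℝ≥0∞) [hp1 : Fact (1 ≤ p)] (hp : p ≠ ∞) (hq2 : 2 ≤ p.toReal) :
    ∃ c : ℝ, 0 < c ∧ ∀ D : ℝ, 1 ≤ D → ∀ n : ℕ, 16 ≤ n → ∀ d : ℕ, EmbedsAll.{u} p n D d →
      c * (Real.log n / Real.log (Real.log n)) ^ (p.toReal / 2) / D ^ p.toReal ≤ d := by
  set q := p.toReal with hqdef
  have hq0 : 0 < q := by linarith
  have hgk := gk_pos
  have hgm := gmom_pos q hq0
  have hpi := Real.pi_pos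
  set A : ℝ := 2 ^ (q - 1) * ((Real.pi / 2) ^ q * gmom q + 2 ^ q) with hA
  have hApos : 0 < A := by positivity
  set c1 : ℝ := (4 * gk) ^ (q / 2) / A with hc1
  have hc1pos : 0 < c1 := by positivity
  refine ⟨min (c1 / 6 ^ (q / 2)) (1 / 3 ^ (q / 2)), lt_min (by positivity) (by positivity), ?_⟩
  intro D hD n hn d h
  have hDq : 1 ≤ D ^ q := Real.one_le_rpow hD hq0.le
  have hn16 : (16 : ℝ) ≤ n := by exact_mod_cast hn
  set L := Real.log n with hL
  have hLe : Real.exp 1 < L := by
    have h1 : Real.log 16 ≤ L := Real.log_le_log (by norm_num) hn16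
    have h2 : Real.log 16 = 4 * Real.log 2 := by
      rw [show (16 : ℝ) = 2 ^ 4 by norm_num, Real.log_pow]; norm_num
    have h3 := Real.log_two_gt_d9
    have h4 := Real.exp_one_lt_d9
    linarith
  have hL0 : 0 < L := lt_trans (Real.exp_pos 1) hLe
  set l := Real.log L with hl
  have hl1 : 1 < l := by
    rw [hl, Real.lt_log_iff_exp_lt hL0]
    exact hLe
  have hl0 : 0 < l := by linarith
  have hone := one_le_dim p hp n (by omega) D d h
  have hone' : (1 : ℝ) ≤ d := by exact_mod_cast hone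
  set k := ⌊L / (3 * l)⌋₊ with hk
  have hkle : (k : ℝ) ≤ L / (3 * l) := Nat.floor_le (by positivity)
  have hklt : L / (3 * l) < k + 1 := Nat.lt_floor_add_one _
  have hratio : 0 ≤ L / l := by positivity
  rcases Nat.eq_zero_or_pos k with hk0 | hkpos
  · rw [hk0] at hklt
    have h1 : L / l ≤ 3 := by
      rw [div_lt_iff₀ (by positivity)] at hklt
      rw [div_le_iff₀ hl0]
      push_cast at hklt
      linarith
    have h2 : (L / l) ^ (q / 2) ≤ 3 ^ (q / 2) := Real.rpow_le_rpow hratio h1 (by linarith)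
    calc min (c1 / 6 ^ (q / 2)) (1 / 3 ^ (q / 2)) * (L / l) ^ (q / 2) / D ^ q
        ≤ min (c1 / 6 ^ (q / 2)) (1 / 3 ^ (q / 2)) * (L / l) ^ (q / 2) := by
          apply div_le_self _ hDq
          have : 0 < min (c1 / 6 ^ (q / 2)) (1 / 3 ^ (q / 2)) :=
            lt_min (by positivity) (by positivity)
          positivity
      _ ≤ (1 / 3 ^ (q / 2)) * 3 ^ (q / 2) :=
          mul_le_mul (min_le_right _ _) h2 (by positivity) (by positivity)
      _ = 1 := by
          have : (3 : ℝ) ^ (q / 2) ≠ 0 := by positivity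
          field_simp
      _ ≤ d := hone'
  · have hk1 : (1 : ℝ) ≤ k := by exact_mod_cast hkpos
    have hN1 : 1 ≤ Nat.sqrt k + 1 := by omega
    have hN2 : k ≤ (Nat.sqrt k + 1) ^ 2 := by
      have := Nat.lt_succ_sqrt k
      rw [Nat.succ_eq_add_one] at this
      rw [sq]; exact this.le
    have hN3 : 2 * (Nat.sqrt k + 1) + 1 ≤ 5 * k := by
      have := Nat.sqrt_le_self k
      omega
    have hcard : (2 * (Nat.sqrt k + 1) + 1) ^ k ≤ n := by
      have h1 : (2 * (Nat.sqrt k + 1) + 1) ^ k ≤ (5 * k) ^ k := Nat.pow_le_pow_left hN3 k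
      refine h1.trans ?_
      have h2 : ((5 * (k : ℝ)) ^ k) ≤ n := by
        rw [← Real.log_le_log_iff (by positivity) (by linarith), Real.log_pow,
          Real.log_mul (by norm_num) (by positivity)]
        have h3 : Real.log k ≤ l := by
          apply Real.log_le_log (by positivity)
          calc (k : ℝ) ≤ L / (3 * l) := hkle
            _ ≤ L := by
              apply div_le_self hL0.le
              linarith
        have h4 : Real.log 5 ≤ 2 * l := by
          have h5 : Real.log 5 ≤ 2 := by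
            rw [Real.log_le_iff_le_exp (by norm_num)]
            have h6 := Real.exp_one_gt_d9
            have h7 : Real.exp 2 = Real.exp 1 * Real.exp 1 := by
              rw [← Real.exp_add]; norm_num
            rw [h7]
            nlinarith
          linarith
        calc (k : ℝ) * (Real.log 5 + Real.log k) ≤ k * (3 * l) := by
              apply mul_le_mul_of_nonneg_left _ (by positivity)
              linarith
          _ ≤ L := by rwa [le_div_iff₀ (by positivity)] at hkle
      exact_mod_cast h2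
    have hmain := lower_main p hp hq2 k (Nat.sqrt k + 1) hN1 hN2 hkpos n hcard D hD d h
    rw [← hqdef, ← hA] at hmain
    have h1 : L / l ≤ 6 * k := by
      rw [div_lt_iff₀ (by positivity)] at hklt
      rw [div_le_iff₀ hl0]
      nlinarith
    have h2 : (L / l) ^ (q / 2) ≤ 6 ^ (q / 2) * (k : ℝ) ^ (q / 2) := by
      rw [← Real.mul_rpow (by norm_num) (by positivity)]
      exact Real.rpow_le_rpow hratio h1 (by linarith)
    have h3 : (4 * gk * k) ^ (q / 2) = (4 * gk) ^ (q / 2) * (k : ℝ) ^ (q / 2) :=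
      Real.mul_rpow (by positivity) (by positivity)
    rw [h3] at hmain
    have hDpos : 0 < D ^ q := by linarith
    rw [div_le_iff₀ hDpos]
    calc min (c1 / 6 ^ (q / 2)) (1 / 3 ^ (q / 2)) * (L / l) ^ (q / 2)
        ≤ (c1 / 6 ^ (q / 2)) * (6 ^ (q / 2) * (k : ℝ) ^ (q / 2)) :=
          mul_le_mul (min_le_left _ _) h2 (by positivity) (by positivity)
      _ = c1 * (k : ℝ) ^ (q / 2) := by
          have : (6 : ℝ) ^ (q / 2) ≠ 0 := by positivity
          field_simp
      _ = ((4 * gk) ^ (q / 2) * (k : ℝ) ^ (q / 2)) / A := by rw [hc1]; ring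
      _ ≤ (d * (D ^ q * A)) / A := div_le_div_of_nonneg_right hmain hApos.le
      _ = d * D ^ q := by field_simp

end Vale.Agent.P249
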