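import Mathlib

open Finset

namespace Vale.Agent.P249

variable {V : Type*}

/-- Paths of length at most `r` are determined by their endpoints. -/
def UniqPaths (H : SimpleGraph V) (r : ℕ) : Prop :=
  ∀ (u w : V) (p q : H.Walk u w), p.IsPath → q.IsPath → p.length ≤ r → q.length ≤ r → p = q

theorem uniqPaths_bot (r : ℕ) : UniqPaths (⊥ : SimpleGraph V) r := by
  intro u w p q _ _ _ _
  cases p with
  | nil =>
    cases q with
    | nil => rfl
    | cons h _ => exact absurd h (by simp)
  | cons h _ => exact absurd h (by simp)

theorem walk_decomp (H : SimpleGraph V) (x y : V) (hxy : (H ⊔ SimpleGraph.edge x y).Adj x y) :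
    ∀ {u w : V} (p : (H ⊔ SimpleGraph.edge x y).Walk u w), p.IsPath →
      (∃ p0 : H.Walk u w, p = p0.mapLe le_sup_left) ∨
      (∃ (p1 : H.Walk u x) (p2 : H.Walk y w),
        p = (p1.mapLe le_sup_left).append (SimpleGraph.Walk.cons hxy (p2.mapLe le_sup_left))) ∨
      (∃ (p1 : H.Walk u y) (p2 : H.Walk x w),
        p = (p1.mapLe le_sup_left).append
          (SimpleGraph.Walk.cons hxy.symm (p2.mapLe le_sup_left))) := by
  intro u w p
  induction p with
  | nil => intro _; exact Or.inl ⟨SimpleGraph.Walk.nil, rfl⟩
  | @cons u v w h p ih =>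
    intro hp
    rw [SimpleGraph.Walk.cons_isPath_iff] at hp
    obtain ⟨hp, hu⟩ := hp
    by_cases hH : H.Adj u v
    · rcases ih hp with ⟨p0, h0⟩ | ⟨p1, p2, h12⟩ | ⟨p1, p2, h12⟩
      · exact Or.inl ⟨SimpleGraph.Walk.cons hH p0, by rw [h0]; rfl⟩
      · exact Or.inr (Or.inl ⟨SimpleGraph.Walk.cons hH p1, p2, by rw [h12]; rfl⟩)
      · exact Or.inr (Or.inr ⟨SimpleGraph.Walk.cons hH p1, p2, by rw [h12]; rfl⟩)
    · have h' : (SimpleGraph.edge x y).Adj u v := by
        rcases h with h | h
        · exact absurd h hH
        · exact h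
      rw [SimpleGraph.edge_adj] at h'
      rcases ih hp with ⟨p0, h0⟩ | ⟨p1, p2, h12⟩ | ⟨p1, p2, h12⟩
      · rcases h'.1 with ⟨rfl, rfl⟩ | ⟨rfl, rfl⟩
        · exact Or.inr (Or.inl ⟨SimpleGraph.Walk.nil, p0, by rw [h0]; rfl⟩)
        · exact Or.inr (Or.inr ⟨SimpleGraph.Walk.nil, p0, by rw [h0]; rfl⟩)
      · exfalso
        apply hu
        rw [h12, SimpleGraph.Walk.mem_support_append_iff]
        rcases h'.1 with ⟨rfl, rfl⟩ | ⟨rfl, rfl⟩
        · left; exact SimpleGraph.Walk.end_mem_support _
        · right; rw [SimpleGraph.Walk.support_cons]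
          exact List.mem_cons_of_mem _ (SimpleGraph.Walk.start_mem_support _)
      · exfalso
        apply hu
        rw [h12, SimpleGraph.Walk.mem_support_append_iff]
        rcases h'.1 with ⟨rfl, rfl⟩ | ⟨rfl, rfl⟩
        · right; rw [SimpleGraph.Walk.support_cons]
          exact List.mem_cons_of_mem _ (SimpleGraph.Walk.start_mem_support _)
        · left; exact SimpleGraph.Walk.end_mem_support _

theorem uniqPaths_insert (H : SimpleGraph V) (x y : V) (r : ℕ) (hne : x ≠ y)
    (hU : UniqPaths H r) (hno : ∀ p : H.Walk x y, 2 * r - 1 < p.length) :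
    UniqPaths (H ⊔ SimpleGraph.edge x y) r := by
  have hxy : (H ⊔ SimpleGraph.edge x y).Adj x y := by
    right; rw [SimpleGraph.edge_adj]; exact ⟨Or.inl ⟨rfl, rfl⟩, hne⟩
  intro u w p q hp hq hpl hql
  have hp' := hp
  have hq' := hq
  have map_path : ∀ {a b : V} (t : H.Walk a b),
      (t.mapLe (le_sup_left : H ≤ H ⊔ SimpleGraph.edge x y)).IsPath → t.IsPath := by
    intro a b t ht
    exact (SimpleGraph.Walk.isPath_mapLe _).1 ht
  rcases walk_decomp H x y hxy p hp with ⟨p0, h0⟩ | ⟨p1, p2, h12⟩ | ⟨p1, p2, h12⟩ <;>
  rcases walk_decomp H x y hxy q hq with ⟨q0, g0⟩ | ⟨q1, q2, g12⟩ | ⟨q1, q2, g12⟩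
  · subst h0; subst g0
    have := hU u w p0 q0 (map_path _ hp) (map_path _ hq) (by simpa using hpl) (by simpa using hql)
    rw [this]
  · exfalso
    subst h0; subst g12
    have := hno ((q1.reverse.append p0).append q2.reverse)
    simp only [SimpleGraph.Walk.length_append, SimpleGraph.Walk.length_reverse,
      SimpleGraph.Walk.length_cons, SimpleGraph.Walk.length_map, SimpleGraph.Walk.mapLe] at *
    omega
  · exfalso
    subst h0; subst g12
    have := hno ((q2.append p0.reverse).append q1)
    simp only [SimpleGraph.Walk.length_append, SimpleGraph.Walk.length_reverse,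
      SimpleGraph.Walk.length_cons, SimpleGraph.Walk.length_map, SimpleGraph.Walk.mapLe] at *
    omega
  · exfalso
    subst h12; subst g0
    have := hno ((p1.reverse.append q0).append p2.reverse)
    simp only [SimpleGraph.Walk.length_append, SimpleGraph.Walk.length_reverse,
      SimpleGraph.Walk.length_cons, SimpleGraph.Walk.length_map, SimpleGraph.Walk.mapLe] at *
    omega
  · subst h12; subst g12
    have e1 : p1 = q1 := by
      apply hU _ _ _ _ (map_path _ hp.of_append_left) (map_path _ hq.of_append_left)
      · simp only [SimpleGraph.Walk.length_append, SimpleGraph.Walk.length_reverse,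
          SimpleGraph.Walk.length_cons, SimpleGraph.Walk.length_map, SimpleGraph.Walk.mapLe] at *
        omega
      · simp only [SimpleGraph.Walk.length_append, SimpleGraph.Walk.length_reverse,
          SimpleGraph.Walk.length_cons, SimpleGraph.Walk.length_map, SimpleGraph.Walk.mapLe] at *
        omega
    have e2 : p2 = q2 := by
      apply hU _ _ _ _ (map_path _ hp.of_append_right.of_cons) (map_path _ hq.of_append_right.of_cons)
      · simp only [SimpleGraph.Walk.length_append, SimpleGraph.Walk.length_reverse,
          SimpleGraph.Walk.length_cons, SimpleGraph.Walk.length_map, SimpleGraph.Walk.mapLe] at *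
        omega
      · simp only [SimpleGraph.Walk.length_append, SimpleGraph.Walk.length_reverse,
          SimpleGraph.Walk.length_cons, SimpleGraph.Walk.length_map, SimpleGraph.Walk.mapLe] at *
        omega
    rw [e1, e2]
  · exfalso
    subst h12; subst g12
    have := hno (p1.reverse.append q1)
    simp only [SimpleGraph.Walk.length_append, SimpleGraph.Walk.length_reverse,
      SimpleGraph.Walk.length_cons, SimpleGraph.Walk.length_map, SimpleGraph.Walk.mapLe] at *
    omega
  · exfalso
    subst h12; subst g0
    have := hno ((p2.append q0.reverse).append p1)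
    simp only [SimpleGraph.Walk.length_append, SimpleGraph.Walk.length_reverse,
      SimpleGraph.Walk.length_cons, SimpleGraph.Walk.length_map, SimpleGraph.Walk.mapLe] at *
    omega
  · exfalso
    subst h12; subst g12
    have := hno (q1.reverse.append p1)
    simp only [SimpleGraph.Walk.length_append, SimpleGraph.Walk.length_reverse,
      SimpleGraph.Walk.length_cons, SimpleGraph.Walk.length_map, SimpleGraph.Walk.mapLe] at *
    omega
  · subst h12; subst g12
    have e1 : p1 = q1 := by
      apply hU _ _ _ _ (map_path _ hp.of_append_left) (map_path _ hq.of_append_left)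
      · simp only [SimpleGraph.Walk.length_append, SimpleGraph.Walk.length_reverse,
          SimpleGraph.Walk.length_cons, SimpleGraph.Walk.length_map, SimpleGraph.Walk.mapLe] at *
        omega
      · simp only [SimpleGraph.Walk.length_append, SimpleGraph.Walk.length_reverse,
          SimpleGraph.Walk.length_cons, SimpleGraph.Walk.length_map, SimpleGraph.Walk.mapLe] at *
        omega
    have e2 : p2 = q2 := by
      apply hU _ _ _ _ (map_path _ hp.of_append_right.of_cons) (map_path _ hq.of_append_right.of_cons)
      · simp only [SimpleGraph.Walk.length_append, SimpleGraph.Walk.length_reverse,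
          SimpleGraph.Walk.length_cons, SimpleGraph.Walk.length_map, SimpleGraph.Walk.mapLe] at *
        omega
      · simp only [SimpleGraph.Walk.length_append, SimpleGraph.Walk.length_reverse,
          SimpleGraph.Walk.length_cons, SimpleGraph.Walk.length_map, SimpleGraph.Walk.mapLe] at *
        omega
    rw [e1, e2]

end Vale.Agent.P249
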