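import Vale.Agent.P249.Upper

open MeasureTheory Finset
open scoped ENNReal

namespace Vale.Agent.P249

universe u

theorem upper_bound (p : ℝ≥0∞) [hp1 : Fact (1 ≤ p)] (hp : p ≠ ∞) (D : ℝ) (hD : 1 < D) :
    ∃ C : ℝ, 0 < C ∧ ∀ n : ℕ, 2 ≤ n →
      ∃ d : ℕ, EmbedsAll.{u} p n D d ∧ (d : ℝ) ≤ C * n * Real.log n ^ p.toReal := by
  have hq : 1 ≤ p.toReal := one_le_toReal hp1.out hp
  set q := p.toReal with hqdef
  set a : ℝ := (D - 1) / (2 * (D + 1)) with ha
  have ha0 : 0 < a := by apply div_pos <;> linarith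
  have hl2 : 0 < Real.log 2 := Real.log_pos (by norm_num)
  refine ⟨12 * 5 ^ (q - 1) / a ^ 2 + 1 / Real.log 2 ^ q, by positivity, ?_⟩
  intro n hn
  have hn2 : (2 : ℝ) ≤ n := by exact_mod_cast hn
  have hn0 : (0 : ℝ) < n := by linarith
  have hlog : Real.log 2 ≤ Real.log n := Real.log_le_log (by norm_num) hn2
  have hlogpos : 0 < Real.log n := lt_of_lt_of_le hl2 hlog
  set r := Nat.log 2 n + 1 with hr
  have hr2 : n < 2 ^ r := Nat.lt_pow_succ_log_self (by norm_num) n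
  set A : ℝ := (4 * n * ((2 * r - 1 : ℕ) : ℝ) ^ (q - 1)) * Real.log (2 * (n : ℝ) ^ 2) / a ^ 2
    with hA
  refine ⟨⌈A⌉₊, embedsAll_of_le p hp D hD n hn r hr2 _ (Nat.le_ceil _), ?_⟩
  have hlog2n : Real.log (2 * (n : ℝ) ^ 2) ≤ 3 * Real.log n := by
    rw [Real.log_mul (by norm_num) (by positivity), Real.log_pow]
    push_cast
    linarith
  have hlog2n0 : 0 ≤ Real.log (2 * (n : ℝ) ^ 2) := Real.log_nonneg (by nlinarith)
  have hK : ((2 * r - 1 : ℕ) : ℝ) ≤ 5 * Real.log n := by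
    have h1 : 2 * r - 1 = 2 * Nat.log 2 n + 1 := by omega
    rw [h1]
    push_cast
    have h2 : (Nat.log 2 n : ℝ) * Real.log 2 ≤ Real.log n := by
      have h3 : (2 : ℝ) ^ (Nat.log 2 n) ≤ n := by
        exact_mod_cast Nat.pow_log_le_self 2 (by omega)
      have h4 := Real.log_le_log (by positivity) h3
      rwa [Real.log_pow] at h4
    have h5 : (0.6931471803 : ℝ) < Real.log 2 := Real.log_two_gt_d9
    have h6 : (0 : ℝ) ≤ Nat.log 2 n := Nat.cast_nonneg _
    nlinarith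
  have hA0 : 0 ≤ A := by positivity
  have hAle : A ≤ 12 * 5 ^ (q - 1) / a ^ 2 * n * Real.log n ^ q := by
    have h1 : ((2 * r - 1 : ℕ) : ℝ) ^ (q - 1) ≤ (5 * Real.log n) ^ (q - 1) :=
      Real.rpow_le_rpow (Nat.cast_nonneg _) hK (by linarith)
    have h2 : (5 * Real.log n) ^ (q - 1) = 5 ^ (q - 1) * Real.log n ^ (q - 1) :=
      Real.mul_rpow (by norm_num) hlogpos.le
    have h3 : Real.log n ^ q = Real.log n ^ (q - 1) * Real.log n := by
      rw [← Real.rpow_add_one hlogpos.ne']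
      congr 1; ring
    calc A ≤ (4 * n * (5 ^ (q - 1) * Real.log n ^ (q - 1))) * (3 * Real.log n) / a ^ 2 := by
          rw [hA]
          apply div_le_div_of_nonneg_right _ (by positivity)
          apply mul_le_mul _ hlog2n hlog2n0 (by positivity)
          rw [← h2]
          apply mul_le_mul_of_nonneg_left h1 (by positivity)
      _ = 12 * 5 ^ (q - 1) / a ^ 2 * n * Real.log n ^ q := by rw [h3]; ring
  have hone : 1 ≤ 1 / Real.log 2 ^ q * n * Real.log n ^ q := by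
    have h1 : Real.log 2 ^ q ≤ Real.log n ^ q := Real.rpow_le_rpow hl2.le hlog (by linarith)
    have h2 : 0 < Real.log 2 ^ q := Real.rpow_pos_of_pos hl2 q
    have h3 : 0 < Real.log n ^ q := Real.rpow_pos_of_pos hlogpos q
    have h4 : 1 / Real.log 2 ^ q * n * Real.log n ^ q = n * (Real.log n ^ q / Real.log 2 ^ q) := by
      field_simp
    rw [h4]
    have h5 : 1 ≤ Real.log n ^ q / Real.log 2 ^ q := by rwa [one_le_div h2]
    nlinarith
  calc ((⌈A⌉₊ : ℕ) : ℝ) ≤ A + 1 := (Nat.ceil_lt_add_one hA0).le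
    _ ≤ 12 * 5 ^ (q - 1) / a ^ 2 * n * Real.log n ^ q +
        1 / Real.log 2 ^ q * n * Real.log n ^ q := add_le_add hAle hone
    _ = (12 * 5 ^ (q - 1) / a ^ 2 + 1 / Real.log 2 ^ q) * n * Real.log n ^ q := by ring

end Vale.Agent.P249
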